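import Crest.Agent.X277.BD.Cyc
import Crest.Agent.X277.BD.BrA
import Crest.Agent.X277.Neg.Loc
import Crest.Agent.X262.Mod79.Neg

/-!
# Row 262, GEO (helper24), part 1: divisorial valuations, the cycle formula on a model

* `od V a`   : the coefficient of the b-divisor `a` along `V`;
* `IsMod.va`, `prm_iff_pdiv` : the dictionary `Mod.IsMod`, `Pst.Prm` versus `Mdl`, `PDiv`;
* `essFT_Rf`, `dim_Rf'` : the residue field of a divisorial valuation ring;
* `dg V l`   : the degree of the classes `l` on the divisor `V`;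
* `bnum_cyc` : `a · l = ∑ od V a * dg V l`; `prm_iff_dg` : primes of the model have positive degree.
-/

set_option autoImplicit false
set_option linter.unusedSectionVars false

noncomputable section

namespace Crest.Agent.X262.Geo

open Crest.Agent.X277 Crest.Agent.X277.BD Crest.Agent.X277.Pst Crest.Agent.X277.BD.Cyc
open Crest.Agent.X277.Neg (nv nv_triv IsNv isNv_nv le_loc)
open Crest.Agent.X277.AN.G2 (PDiv)
open Crest.Agent.X262.Mod (IsMod Car)
open Crest.Agent.R276.DivVal_858 (ResInd)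
open WithZero

variable {k F : Type} [Field k] [Field F] [Algebra k F]

/-- the coefficient of a b-divisor along `V` -/
def od (V : RZ k F) : BD k F →+ ℤ := ord (nv V) (nv_triv V)

variable {V W : RZ k F} {H a b : BD k F} {s g x : F} {l : List (BD k F)}

theorem od_mono (h : a ≤ b) : od V a ≤ od V b := ord_mono h

theorem od_nonneg (h : 0 ≤ a) : 0 ≤ od V a := ord_nonneg h

theorem od_sup (a b : BD k F) : od V (a ⊔ b) = max (od V a) (od V b) := ord_sup a b

theorem od_inf (a b : BD k F) : od V (a ⊓ b) = min (od V a) (od V b) := by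
  rw [← neg_inj, ← map_neg, neg_inf, od_sup, map_neg, map_neg, max_neg_neg]

theorem od_pr (hs : s ≠ 0) : od V (pr k s) = log (nv V s) := ord_pr hs

theorem le_exp_od (hs : s ∈ a.Sec) : nv V s ≤ exp (od V a) := le_exp_ord hs

/-- local sections extend after a twist -/
theorem exists_tw (hH : Free H) (hg : g ∈ H.Sec) (h0 : g ≠ 0)
    (h : ∀ V : RZ k F, V.v g = H.val V → V.v x ≤ a.val V) :
    ∃ N0 : ℕ, ∀ N, N0 ≤ N → x * g ^ N ∈ (a + N • H).Sec := by
  obtain ⟨r, s, hs0, h1, h2⟩ := hH.exists_fam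
  have h3 : ∀ j, ∃ N0 : ℕ, ∀ N, N0 ≤ N → ∀ V : RZ k F,
      (∀ y ∈ insert (g / s j) (Set.range fun i => s i / s j), y ∈ V.1) →
      V.v ((g / s j) ^ N * x) ≤ a.val V := fun j =>
    Br.exists_pow_le (Set.mem_insert _ _) fun V hV hi => h V (by
      have h4 := val_of_chart (hs0 j) h1 h2 fun y hy => hV y (Set.mem_insert_of_mem _ hy)
      rw [inv_div, ← RZ.le_iff h0, h4] at hi
      exact (hg V).antisymm hi)
  choose N0 h4 using h3
  refine ⟨Finset.univ.sup N0, fun N hN V => ?_⟩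
  obtain ⟨j, hj⟩ := h2 V
  have h5 := h4 j N ((Finset.le_sup (Finset.mem_univ j)).trans hN) V (by
    rintro y (rfl | hy)
    · exact (RZ.le_iff (hs0 j)).1 (hj ▸ hg V)
    · exact chart_of_val h1 hj y hy)
  rw [val_add, val_nsmul, ← hj, ← map_pow, ← div_le_iff₀ (RZ.pos (pow_ne_zero N (hs0 j))),
    ← map_div₀, mul_div_assoc, ← div_pow, mul_comm]
  exact h5

/-- functions which are regular on the chart `g ≠ 0` lie in the local rings -/
theorem mem_loc_of_chart (hH : Free H) (hg : g ∈ H.Sec) (hV : V.v g = H.val V)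
    (h : ∀ W : RZ k F, W.v g = H.val W → x ∈ W.1) : x ∈ loc H V := by
  obtain ⟨N, hN⟩ := exists_tw (a := 0) (x := x) hH hg (ne_of_val hV)
    fun W hW => RZ.le_one_iff.2 (h W hW)
  exact ⟨N, g ^ N, pow_mem_Sec hg N, by rw [map_pow, val_nsmul, hV],
    by simpa using hN N le_rfl⟩

theorem r_aeval {E : Type} [Field E] [Algebra k E] {p : Pl k F k E} (hp : Lnr p) {ι : Type*}
    {y : ι → F} (hy : ∀ i, y i ∈ p.V.1) (q : MvPolynomial ι k) :
    MvPolynomial.aeval y q ∈ p.V.1 ∧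
      p.r (MvPolynomial.aeval y q) = MvPolynomial.aeval (fun i => p.r (y i)) q := by
  induction q using MvPolynomial.induction_on with
  | C c => simpa using ⟨p.V.2 c, hp c⟩
  | add q q' h h' => rw [map_add, map_add, Pl.r_add h.1 h'.1, h.2, h'.2]; exact ⟨add_mem h.1 h'.1, rfl⟩
  | mul_X q i h =>
    rw [map_mul, map_mul, MvPolynomial.aeval_X, MvPolynomial.aeval_X, Pl.r_mul h.1 (hy i), h.2]
    exact ⟨mul_mem h.1 (hy i), rfl⟩

theorem resInd_iff {E : Type} [Field E] [Algebra k E] {p : Pl k F k E} (hp : Lnr p) {ι : Type*}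
    {y : ι → F} (hy : ∀ i, y i ∈ p.V.1) :
    ResInd k p.V.1 y ↔ AlgebraicIndependent k fun i => p.r (y i) := by
  rw [algebraicIndependent_iff]
  refine ⟨fun h q hq => by_contra fun h0 => ?_, fun h => ⟨hy, fun q hq => ?_⟩⟩
  · exact Pl.r_ne_zero_iff.2 (h.2 q h0) ((r_aeval hp hy q).2.trans hq)
  · exact Pl.r_ne_zero_iff.1 fun h0 => hq (h q ((r_aeval hp hy q).2.symm.trans h0))

theorem dm_eq : Gj.dm k F = dim k F := rfl

open Classical in
/-- the degree of a list of classes on the divisor `V` -/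
def dg [CharZero k] (V : RZ k F) (l : List (BD k F)) : ℤ :=
  if h : Algebra.EssFiniteType k (Rf V) then (haveI := h; bnum (l.map (plV V).rs)) else 0

variable [CharZero k]

theorem dg_eq [h : Algebra.EssFiniteType k (Rf V)] (l : List (BD k F)) :
    dg V l = bnum (l.map (plV V).rs) := dif_pos h

theorem dg_nonneg (hl : ∀ a ∈ l, Nef a) : 0 ≤ dg V l := by
  unfold dg
  split_ifs
  · exact bnum_nonneg fun b hb => by
      obtain ⟨a, ha, rfl⟩ := List.mem_map.1 hb
      exact (hl a ha).rs _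
  · exact le_rfl

theorem dg_perm {l' : List (BD k F)} (h : l.Perm l') : dg V l = dg V l' := by
  unfold dg
  split_ifs
  · exact bnum_perm (h.map _)
  · rfl

theorem dg_add (a b : BD k F) (l : List (BD k F)) :
    dg V ((a + b) :: l) = dg V (a :: l) + dg V (b :: l) := by
  unfold dg
  split_ifs
  · rw [List.map_cons, (Pl.lin_rs_add a b).bnum_eq, bnum_add]
    rfl
  · rfl

/-- `a ↦ dg V (a :: l)` -/
def dgL (V : RZ k F) (l : List (BD k F)) : BD k F →+ ℤ :=
  AddMonoidHom.mk' (fun a => dg V (a :: l)) fun a b => dg_add a b l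

theorem dgL_apply (a : BD k F) : dgL V l a = dg V (a :: l) := rfl

theorem dg_zero (l : List (BD k F)) : dg V (0 :: l) = 0 := map_zero (dgL V l)

theorem dg_neg (a : BD k F) (l : List (BD k F)) : dg V ((-a) :: l) = -dg V (a :: l) :=
  map_neg (dgL V l) a

theorem dg_sub (a b : BD k F) (l : List (BD k F)) :
    dg V ((a - b) :: l) = dg V (a :: l) - dg V (b :: l) := map_sub (dgL V l) a b

theorem dg_nsmul (m : ℕ) (a : BD k F) (l : List (BD k F)) :
    dg V ((m • a) :: l) = m * dg V (a :: l) := by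
  rw [← nsmul_eq_mul]
  exact map_nsmul (dgL V l) m a

theorem dg_zsmul (m : ℤ) (a : BD k F) (l : List (BD k F)) :
    dg V ((m • a) :: l) = m * dg V (a :: l) := map_zsmul (dgL V l) m a

theorem dg_sum {ι : Type*} (t : Finset ι) (a : ι → BD k F) (l : List (BD k F)) :
    dg V ((∑ i ∈ t, a i) :: l) = ∑ i ∈ t, dg V (a i :: l) := map_sum (dgL V l) a t

theorem dg_pr (f : F) (l : List (BD k F)) : dg V (pr k f :: l) = 0 := by
  unfold dg
  split_ifs
  · rw [List.map_cons, (Pl.lin_rs_pr f).bnum_eq, bnum_zero]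
  · rfl

theorem Lin.dg_eq (h : Lin a b) (l : List (BD k F)) : dg V (a :: l) = dg V (b :: l) := by
  obtain ⟨f, -, rfl⟩ := h
  rw [dg_add, dg_pr, add_zero]

/-- an effective class which does not contain `V` has nonnegative degree -/
theorem dg_nonneg_of (h0 : 0 ≤ a) (h1 : a.val V = 1) (hl : ∀ b ∈ l, Nef b) : 0 ≤ dg V (a :: l) := by
  unfold dg
  split_ifs
  · rw [List.map_cons, (Pl.lin_rs_res (p := plV V) h1).bnum_eq]
    refine (psef_of_nonneg ?_).bnum_nonneg fun b hb => ?_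
    · simpa using Pl.res_mono (p := plV V) (a := 0) rfl h1 h0
    · obtain ⟨a, ha, rfl⟩ := List.mem_map.1 hb
      exact (hl a ha).rs _
  · exact le_rfl

variable [Algebra.EssFiniteType k F]

section Dvs

variable (hV : Dvs V)
include hV

theorem rz_nv : rz (nv V) (nv_triv V) = V := (isNv_nv hV).rz_eq _

theorem le_od_iff : nv V s ≤ exp (od V a) ↔ V.v s ≤ a.val V := by
  rw [od, exp_ord, le_vl_iff, rz_nv hV]

theorem eq_od_iff : nv V s = exp (od V a) ↔ V.v s = a.val V := by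
  rw [od, exp_ord, eq_vl_iff, rz_nv hV]

theorem od_le_iff : od V a ≤ od V b ↔ a.val V ≤ b.val V := by rw [od, ord_le_iff, rz_nv hV]

theorem od_eq_iff : od V a = od V b ↔ a.val V = b.val V := by
  rw [le_antisymm_iff, le_antisymm_iff, od_le_iff hV, od_le_iff hV]

theorem od_lt_iff : od V a < od V b ↔ a.val V < b.val V := by
  rw [← not_le, ← not_le, od_le_iff hV]

theorem od_eq_zero : od V a = 0 ↔ a.val V = 1 := by rw [od, ord_eq_zero, rz_nv hV]

theorem od_of_gen (h : V.v s = a.val V) : od V a = log (nv V s) := by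
  rw [(eq_od_iff hV).2 h, log_exp]

theorem nv_unif : ∃ t, nv V t = exp (-1) := (isNv_nv hV).unif

theorem nv_le_one : nv V s ≤ 1 ↔ s ∈ V.1 := (isNv_nv hV).le_one

theorem nv_eq_one : nv V s = 1 ↔ V.v s = 1 := (isNv_nv hV).eq_one

theorem nv_lt_one : nv V s < 1 ↔ V.v s < 1 := (isNv_nv hV).lt_one

theorem nv_le_iff : nv V s ≤ nv V g ↔ V.v s ≤ V.v g := (isNv_nv hV).le_iff s g

theorem nv_eq_iff : nv V s = nv V g ↔ V.v s = V.v g := (isNv_nv hV).eq_iff

end Dvs

omit [CharZero k] [Algebra.EssFiniteType k F] in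
theorem isNv_rz {v : Valuation F ℤᵐ⁰} (hv : ∀ c : k, v (algebraMap k F c) ≤ 1)
    (hu : ∃ t, v t = exp (-1)) : IsNv (rz v hv) v := ⟨hu, fun _ _ => (v_rz_le_iff v hv).symm⟩

omit [CharZero k] [Algebra.EssFiniteType k F] in
theorem nv_rz {v : Valuation F ℤᵐ⁰} (hv : ∀ c : k, v (algebraMap k F c) ≤ 1)
    (hu : ∃ t, v t = exp (-1)) : nv (rz v hv) = v :=
  AN.G2.val_eq_of_equiv (fun _ => (isNv_rz hv hu).nv.le_one) (isNv_rz hv hu).nv.unif hu

omit [CharZero k] [Algebra.EssFiniteType k F] in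
theorem od_rz {v : Valuation F ℤᵐ⁰} (hv : ∀ c : k, v (algebraMap k F c) ≤ 1)
    (hu : ∃ t, v t = exp (-1)) : od (rz v hv) = ord v hv := by
  unfold od
  congr 1
  exact nv_rz hv hu

/-! ### models -/

theorem _root_.Crest.Agent.X262.Mod.IsMod.va (hH : IsMod H) : VA H := by
  obtain ⟨r, s, h0, h1, h2⟩ := hH.free.exists_fam
  refine va_of_alg hH.free ⟨fun f => ?_⟩
  refine isAlg_of_sub (B' := H.sf.toSubalgebra) (fun z hz => ?_) (alg_chart hH.bir (h0 0) h1 h2 f)
  refine Algebra.adjoin_le (S := H.sf.toSubalgebra) ?_ hz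
  rintro _ ⟨j, rfl⟩
  exact div_mem_sf (h1 j) (h1 0)

theorem isMod_iff_va : IsMod H ↔ VA H := ⟨IsMod.va, fun ⟨M, h⟩ => h ▸ Mod.isMod_mdl M⟩

theorem mem_loc_of_A (M : Mdl k F) {i : Fin (dim k F + 1)} (hi : M.In V {i})
    (hx : x ∈ M.X.A {i}) : x ∈ loc M.H V :=
  mem_loc_of_chart M.free_H (M.t_mem i) (Mdl.in_singleton.1 hi)
    fun W hW => Mdl.mem_A.1 hx W (Mdl.in_singleton.2 hW)

theorem nv_rzD {n : ℕ} {X : R274.Defs_781.Var k F n} (D : PDiv X) : nv (rzD D) = D.v :=
  nv_rz _ D.2.unif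

theorem od_rzD {n : ℕ} {X : R274.Defs_781.Var k F n} (D : PDiv X) : od (rzD D) = ordD D :=
  od_rz _ D.2.unif

theorem rzD_injective {n : ℕ} {X : R274.Defs_781.Var k F n} :
    Function.Injective (rzD : PDiv X → RZ k F) := fun D D' h =>
  Subtype.ext ((nv_rzD D).symm.trans ((congrArg nv h).trans (nv_rzD D')))

theorem exists_pdiv' (M : Mdl k F) {v : Valuation F ℤᵐ⁰} (hv : IsNv V v)
    (h : ∀ x ∈ V.1, x ∈ loc M.H V) : ∃ D : PDiv M.X, rzD D = V := by
  obtain ⟨i, hi⟩ := M.exists_in V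
  have e := hv.rz_eq hv.triv
  have h1 : AN.G2.Ch M.X v.valuationSubring {i} := by
    have := Mdl.in_iff_ch.1 hi
    rwa [← e] at this
  refine ⟨⟨v, AN.G2.pd_of_chart h1 hv.unif fun x hx => ?_⟩, e⟩
  obtain ⟨m, g, h2, h3, h4⟩ := h x (hv.le_one.1 hx)
  have hi' := Finset.mem_singleton_self i
  refine ⟨g / M.t i ^ m, Mdl.mem_L_zero.1 (Mdl.div_mem_L hi' (Mdl.Sec_le_L _ _ (by simpa using h2))),
    hv.eq_one.2 ?_, ?_⟩
  · rw [map_div₀, map_pow, Mdl.in_singleton.1 hi, h3, val_nsmul,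
      div_self (pow_ne_zero _ (val_ne _ _))]
  · rw [div_mul_eq_mul_div, mul_comm]
    exact Mdl.mem_L_zero.1 (Mdl.div_mem_L hi' (Mdl.Sec_le_L _ _ (by simpa using h4)))

theorem exists_pdiv (M : Mdl k F) (hV : Prm M.H V) : ∃ D : PDiv M.X, rzD D = V :=
  exists_pdiv' M (isNv_nv hV.dvs) fun _ => le_loc M.free_H (Mod.isMod_mdl M).bir hV

theorem le_loc_rzD (M : Mdl k F) (D : PDiv M.X) (hx : x ∈ (rzD D).1) : x ∈ loc M.H (rzD D) := by
  obtain ⟨i, hi⟩ := M.exists_in (rzD D)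
  obtain ⟨c, hc, h1, h2⟩ := D.2.loc i (Mdl.in_iff_ch.1 hi) x hx
  have h3 : (rzD D).v c = 1 := (isNv_rz _ D.2.unif).eq_one.1 h1
  have h4 := mul_mem (Neg.inv_mem_loc (mem_loc_of_A M hi hc) h3) (mem_loc_of_A M hi h2)
  rwa [inv_mul_cancel_left₀ (RZ.ne_zero_iff.1 (h3 ▸ one_ne_zero))] at h4

omit [CharZero k] [Algebra.EssFiniteType k F] in
theorem ne_top_of_isNv {v : Valuation F ℤᵐ⁰} (h : IsNv V v) : V.1 ≠ ⊤ := fun h0 => by
  obtain ⟨t, ht⟩ := h.unif
  have h1 : v t⁻¹ ≤ 1 := h.le_one.2 (h0 ▸ trivial)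
  rw [map_inv₀, ht, ← exp_neg, neg_neg, ← exp_zero, exp_le_exp] at h1
  omega

theorem dim_pos_of_ne (h : V.1 ≠ ⊤) : ∃ d, dim k F = d + 1 :=
  Nat.exists_eq_succ_of_ne_zero (dm_ne h)

/-- a valuation ring with a residue field of codimension one is divisorial -/
theorem exists_resInd [Algebra.EssFiniteType k (Rf V)] {d : ℕ} (hd : dim k (Rf V) = d) :
    ∃ y : Fin d → F, ResInd k V.1 y := by
  obtain ⟨t, ht⟩ := exists_isTranscendenceBasis k (Rf V)
  have h1 := ht.cardinalMk_eq_trdeg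
  rw [trdeg_eq_dim, hd] at h1
  obtain ⟨e⟩ := Cardinal.mk_eq_nat_iff.1 h1
  choose y hy using fun i : Fin d => surj_plV V (e.symm i)
  refine ⟨fun i => y i, (resInd_iff (lnr_plV V) fun i => (y i).2).2 ?_⟩
  simp only [Pl.r_coe, hy]
  exact ht.1.comp _ e.symm.injective

theorem prm_rzD (M : Mdl k F) (D : PDiv M.X) : Prm M.H (rzD D) := by
  have h0 := ne_top_of_isNv (isNv_rz D.2.ov D.2.unif)
  obtain ⟨d, hd⟩ := dim_pos_of_ne h0
  obtain ⟨y, hy⟩ := exists_resInd (V := rzD D) (d := Gj.dm k F - 1)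
    (by rw [dim_Rf hd, dm_eq, hd]; rfl)
  exact ⟨h0, y, fun i => le_loc_rzD M D (hy.1 i), hy⟩

theorem prm_iff_pdiv (M : Mdl k F) : Prm M.H V ↔ ∃ D : PDiv M.X, rzD D = V :=
  ⟨exists_pdiv M, fun ⟨D, h⟩ => h ▸ prm_rzD M D⟩

/-- a discrete valuation ring which is a local ring of the model is a prime divisor -/
theorem prm_of_loc (hH : IsMod H) {v : Valuation F ℤᵐ⁰} (hv : IsNv V v)
    (h : ∀ x ∈ V.1, x ∈ loc H V) : Prm H V := by
  obtain ⟨M, rfl⟩ := hH.va
  exact (prm_iff_pdiv M).2 (exists_pdiv' M hv h)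

/-- a divisorial valuation is a prime of some model -/
theorem exists_prm (hV : Dvs V) : ∃ c : BD k F, Free c ∧ Prm c V := by
  classical
  obtain ⟨-, h0, y, hy⟩ := R276.DivVal_858.isDiv_iff.1 hV
  let t : Finset F := insert 1 (Finset.univ.image y)
  have h1 : (1 : F) ∈ (mx k t).Sec := mem_Sec_mx (Finset.mem_insert_self _ _)
  have h2 : V.v 1 = (mx k t).val V := by
    refine le_antisymm (h1 V) ?_
    obtain ⟨g, hg, h⟩ := exists_val_mx (k := k) ⟨1, Finset.mem_insert_self _ _, one_ne_zero⟩ V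
    rw [← h, map_one]
    rcases Finset.mem_insert.1 hg with rfl | hg
    · exact (map_one _).le
    · obtain ⟨i, -, rfl⟩ := Finset.mem_image.1 hg
      exact RZ.le_one_iff.2 (hy.1 i)
  refine ⟨mx k t, free_mx _, h0, y, fun i => ⟨1, 1, by simpa using h1, by simpa using h2, ?_⟩, hy⟩
  simpa using mem_Sec_mx (Finset.mem_insert_of_mem (Finset.mem_image_of_mem y (Finset.mem_univ i)))

/-- a model which carries given divisorial valuations and given classes -/
theorem exists_model (hH : Free H) (T : Finset (RZ k F)) (hT : ∀ V ∈ T, Dvs V)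
    (l : List (BD k F)) : ∃ H' : BD k F, IsMod H' ∧ Car H' H ∧ Free (H' - H) ∧
      (∀ V ∈ T, Prm H' V) ∧ ∀ a ∈ l, Car H' a := by
  choose! c h1 h2 using fun V (h : V ∈ T) => exists_prm (hT V h)
  obtain ⟨M, hM⟩ := exists_mdl l
  have h3 : Free (∑ V ∈ T, c V) := Free.sum _ h1
  have h4 : Free (∑ V ∈ T, c V + H) := h3.add hH
  refine ⟨M.H + (∑ V ∈ T, c V + H), (Mod.isMod_mdl M).add h4, ?_, ?_, ?_, ?_⟩
  · rw [← add_assoc]
    exact Mod.car_add_right (M.free_H.add h3) hH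
  · rw [← add_assoc, add_sub_cancel_right]
    exact M.free_H.add h3
  · classical
    intro V hV
    have h5 := (h2 V hV).add (((Free.sum (T.erase V) fun W hW =>
      h1 W (Finset.mem_of_mem_erase hW)).add hH).add M.free_H)
    rwa [← add_assoc, ← add_assoc, Finset.add_sum_erase _ _ hV, add_comm] at h5
  · exact fun a ha => (Mod.car_mdl.2 (hM a ha)).mono M.free_H h4

theorem exists_mdl_pdiv (hV : Dvs V) : ∃ (M : Mdl k F) (D : PDiv M.X), rzD D = V := by
  obtain ⟨H, h1, -, -, h3, -⟩ := exists_model Free.zero {V} (by simpa using hV) []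
  obtain ⟨M, rfl⟩ := h1.va
  exact ⟨M, exists_pdiv M (h3 V (by simp))⟩

theorem essFT_Rf (hV : Dvs V) : Algebra.EssFiniteType k (Rf V) := by
  obtain ⟨M, D, rfl⟩ := exists_mdl_pdiv hV
  infer_instance

theorem dim_Rf' (hV : Dvs V) : dim k F = dim k (Rf V) + 1 := by
  obtain ⟨d, hd⟩ := dim_pos_of_ne hV.ne_top
  obtain ⟨M, D, rfl⟩ := exists_mdl_pdiv hV
  rw [dim_Rf hd, hd]

theorem dvs_of_dim [Algebra.EssFiniteType k (Rf V)] (h0 : V.1 ≠ ⊤)
    (hd : dim k F = dim k (Rf V) + 1) : Dvs V :=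
  R276.DivVal_858.isDiv_iff.2 ⟨V.2, h0, exists_resInd (by rw [dm_eq, hd]; rfl)⟩

theorem dg_rzD {M : Mdl k F} (D : PDiv M.X) (l : List (BD k F)) : dg (rzD D) l = Cyc.dg D l :=
  dg_eq l

/-- any surjective linear place computes the degree -/
theorem dg_eq_pl {E : Type} [Field E] [Algebra k E] [Algebra.EssFiniteType k E] {p : Pl k F k E}
    (hV : Dvs p.V) (hp : Lnr p) (hs : Function.Surjective p.φ) (l : List (BD k F)) :
    dg p.V l = bnum (l.map p.rs) := by
  obtain ⟨H, h1, -, -, h3, h4⟩ := exists_model Free.zero {p.V} (by simpa using hV) l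
  obtain ⟨M, rfl⟩ := h1.va
  obtain ⟨D, hD⟩ := exists_pdiv M (h3 p.V (by simp))
  obtain ⟨d, hd⟩ := dim_pos_of_ne hV.ne_top
  rw [← hD, dg_rzD]
  exact Cyc.dg_eq_pl hd D hp hD.symm hs fun a ha => Mod.car_mdl.1 (h4 a ha)

theorem dg_of_ne (hV : Dvs V) (h : l.length + 1 ≠ dim k F) : dg V l = 0 := by
  have := essFT_Rf hV
  rw [dg_eq, bnum_of_ne]
  rw [dim_Rf' hV] at h
  simpa using h

theorem fin_od (hH : IsMod H) (a : BD k F) :
    {V : RZ k F | Prm H V ∧ od V a ≠ 0}.Finite :=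
  (fin_val hH.free hH.bir a).subset fun _ h => ⟨h.1, (od_eq_zero h.1.dvs).not.1 h.2⟩

/-- **cycle formula** -/
theorem bnum_cyc (hH : IsMod H) (ha : Car H a) (hl : ∀ b ∈ l, Car H b)
    {T : Finset (RZ k F)} (h1 : ∀ V ∈ T, Prm H V) (h2 : ∀ V, Prm H V → od V a ≠ 0 → V ∈ T) :
    bnum (a :: l) = ∑ V ∈ T, od V a * dg V l := by
  obtain ⟨M, rfl⟩ := hH.va
  rcases Nat.eq_zero_or_eq_succ_pred (dim k F) with hd | hd
  · rw [bnum_of_ne (by simp [hd])]
    exact (Finset.sum_eq_zero fun V hV => (dm_ne (h1 V hV).1 hd).elim).symm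
  rw [Cyc.bnum_cyc hd (Mod.car_mdl.1 ha) (fun b hb => Mod.car_mdl.1 (hl b hb))
    (T := T.preimage rzD rzD_injective.injOn)
    fun D hD => Finset.mem_preimage.2 (h2 _ (prm_rzD M D) (by rwa [od_rzD]))]
  rw [← Finset.sum_preimage rzD T rzD_injective.injOn (fun V => od V a * dg V l)
    fun V hV h => (h (exists_pdiv M (h1 V hV))).elim]
  exact Finset.sum_congr rfl fun D _ => by rw [od_rzD, dg_rzD]

theorem dg_pos (hH : IsMod H) (hV : Prm H V) {d : ℕ} (hd : dim k F = d + 1) :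
    0 < dg V (List.replicate d H) := by
  obtain ⟨M, rfl⟩ := hH.va
  obtain ⟨D, rfl⟩ := exists_pdiv M hV
  rw [dg_rzD]
  exact dg_H_pos hd D

theorem leOn_iff : Mod.LeOn H a b ↔ ∀ V, Prm H V → od V a ≤ od V b :=
  forall₂_congr fun _ h => (od_le_iff h.dvs).symm

theorem eqOn_iff : Mod.EqOn H a b ↔ ∀ V, Prm H V → od V a = od V b :=
  forall₂_congr fun _ h => (od_eq_iff h.dvs).symm

theorem mem_Sec_of_od (hH : IsMod H) (ha : Car H a)
    (h : ∀ V, Prm H V → nv V s ≤ exp (od V a)) : s ∈ a.Sec :=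
  ha.mem_Sec hH fun V hV => (le_od_iff hV.dvs).1 (h V hV)

theorem le_of_od (hH : IsMod H) (ha : Car H a) (hb : Car H b)
    (h : ∀ V, Prm H V → od V a ≤ od V b) : a ≤ b := hb.le hH ha (leOn_iff.2 h)

theorem nonneg_of_od (hH : IsMod H) (ha : Car H a) (h : ∀ V, Prm H V → 0 ≤ od V a) : 0 ≤ a :=
  le_of_od hH Car.zero ha (by simpa using h)

theorem eq_of_od (hH : IsMod H) (ha : Car H a) (hb : Car H b)
    (h : ∀ V, Prm H V → od V a = od V b) : a = b := ha.eq hH hb (eqOn_iff.2 h)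

/-- the order is tested on divisorial valuations -/
theorem le_of_dvs (h : ∀ V, Dvs V → od V a ≤ od V b) : a ≤ b :=
  Mod.le_of_dvs fun V hV => (od_le_iff hV).1 (h V hV)

theorem eq_of_dvs (h : ∀ V, Dvs V → od V a = od V b) : a = b :=
  Mod.eq_of_dvs fun V hV => (od_eq_iff hV).1 (h V hV)

/-- the cycle formula on some model, for arbitrary classes -/
theorem exists_cyc (a : BD k F) (l : List (BD k F)) (S : Finset (RZ k F)) (hS : ∀ V ∈ S, Dvs V) :
    ∃ T : Finset (RZ k F), S ⊆ T ∧ (∀ V ∈ T, Dvs V) ∧ (∀ V ∈ T, V ∉ S → od V a ≠ 0) ∧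
      bnum (a :: l) = ∑ V ∈ T, od V a * dg V l := by
  classical
  obtain ⟨H, h1, -, -, h3, h4⟩ := exists_model Free.zero S hS (a :: l)
  have h5 : ∀ V ∈ S ∪ (fin_od h1 a).toFinset, Prm H V := fun V hV =>
    (Finset.mem_union.1 hV).elim (h3 V) fun h => ((Set.Finite.mem_toFinset _).1 h).1
  refine ⟨S ∪ (fin_od h1 a).toFinset, Finset.subset_union_left, fun V hV => (h5 V hV).dvs,
    fun V hV h => ?_, bnum_cyc h1 (h4 a (by simp)) (fun b hb => h4 b (by simp [hb])) h5
      fun V hV h => Finset.mem_union_right _ ((Set.Finite.mem_toFinset _).2 ⟨hV, h⟩)⟩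
  exact ((Set.Finite.mem_toFinset _).1 ((Finset.mem_union.1 hV).resolve_left h)).2

/-- every divisorial valuation contributes to the degree of an effective class -/
theorem sum_le_bnum (h0 : 0 ≤ a) (hl : ∀ b ∈ l, Nef b) (S : Finset (RZ k F))
    (hS : ∀ V ∈ S, Dvs V) : ∑ V ∈ S, od V a * dg V l ≤ bnum (a :: l) := by
  obtain ⟨T, h1, -, -, h2⟩ := exists_cyc a l S hS
  rw [h2]
  exact Finset.sum_le_sum_of_subset_of_nonneg h1 fun V _ _ =>
    mul_nonneg (od_nonneg h0) (dg_nonneg hl)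

theorem od_mul_le (h0 : 0 ≤ a) (hl : ∀ b ∈ l, Nef b) (hV : Dvs V) :
    od V a * dg V l ≤ bnum (a :: l) := by
  simpa using sum_le_bnum h0 hl {V} (by simpa using hV)

/-- the degree vanishes if the class vanishes wherever the degree does not -/
theorem bnum_eq_zero (h : ∀ V, Dvs V → od V a ≠ 0 → dg V l = 0) : bnum (a :: l) = 0 := by
  obtain ⟨T, -, h1, h2, h3⟩ := exists_cyc a l ∅ (by simp)
  rw [h3]
  exact Finset.sum_eq_zero fun V hV => by rw [h V (h1 V hV) (h2 V hV (by simp)), mul_zero]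

/-- a divisorial valuation of positive degree is a prime of the model -/
theorem prm_of_dg (hH : Free H) (hV : Dvs V) {d : ℕ} (hd : dim k F = d + 1)
    (h : dg V (List.replicate d H) ≠ 0) : Prm H V := by
  classical
  have := essFT_Rf hV
  obtain ⟨r, s, h0, h1, h2⟩ := hH.exists_fam
  obtain ⟨i, hi⟩ := h2 V
  have h3 : ∀ j, s j / s i ∈ V.1 := fun j => (RZ.le_iff (h0 i)).1 (hi ▸ h1 j V)
  let u : Fin (r + 1) → Rf V := fun j => (plV V).r (s j / s i)
  let E : IntermediateField k (Rf V) := IntermediateField.adjoin k (Set.range u)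
  have hE : Algebra.EssFiniteType k E :=
    IntermediateField.essFiniteType_iff.2 (IntermediateField.fg_adjoin_of_finite (Set.finite_range u))
  let u' : Fin (r + 1) → E := fun j => ⟨u j, IntermediateField.subset_adjoin _ _ ⟨j, rfl⟩⟩
  have h4 : H - pr k (s i) = mxf k fun j => s j / s i := by
    refine eq_mxf (fun j => (mem_Sec_sub_pr (h0 i)).2 (by rw [div_mul_cancel₀ _ (h0 i)]; exact h1 j))
      fun W => ?_
    obtain ⟨j, hj⟩ := h2 W
    exact ⟨j, by rw [map_div₀, hj, val_sub, val_pr (h0 i)]⟩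
  have h5 : Lin ((plV V).rs H) (pb E.val (mxf k u')) := by
    have h6 := Pl.lin_rs (p := plV V) hi
    rw [h4, mxf, Pl.res_mx (p := plV V) (fun y hy => by
      obtain ⟨j, -, rfl⟩ := Finset.mem_image.1 hy; exact h3 j)
      ⟨1, by simpa using ⟨i, div_self (h0 i)⟩, map_one _⟩, Finset.image_image] at h6
    rw [pb_mxf]
    exact h6
  have h6 : d ≤ dim k E := by
    by_contra hc
    refine h ?_
    have h7 : List.Forall₂ Lin (List.replicate d ((plV V).rs H))
        (List.replicate d (pb E.val (mxf k u'))) := by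
      generalize d = e
      induction e with
      | zero => exact List.Forall₂.nil
      | succ e ih => exact List.Forall₂.cons h5 ih
    have h8 := bnum_congr h7 []
    have h9 := bnum_pb_zero E.val (l := List.replicate d (mxf k u')) (by simpa using hc) []
    rw [List.map_replicate] at h9
    rw [dg_eq, List.map_replicate, ← List.append_nil (List.replicate _ _), h8, h9]
  have h7 : Algebra.IsAlgebraic (Algebra.adjoin k (Set.range u')) E := by
    have h8 : IntermediateField.adjoin k (Set.range u') = ⊤ := by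
      rw [← IntermediateField.lift_inj, IntermediateField.lift_adjoin, IntermediateField.lift_top,
        ← Set.range_comp]
      rfl
    rw [← IntermediateField.isAlgebraic_adjoin_iff_top, h8, Algebra.isAlgebraic_iff_isIntegral]
    exact Algebra.isIntegral_of_surjective IntermediateField.topEquiv.surjective
  obtain ⟨t, ht, hb⟩ := exists_isTranscendenceBasis_subset (R := k) (Set.range u')
  have h8 := hb.cardinalMk_eq_trdeg
  rw [trdeg_eq_dim] at h8
  obtain ⟨e⟩ := Cardinal.mk_eq_nat_iff.1 h8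
  choose j hj using fun z : t => ht z.2
  refine ⟨hV.ne_top, fun i' => s (j (e.symm (Fin.castLE (by rw [dm_eq, hd]; exact h6) i'))) / s i,
    fun i' => ?_, (resInd_iff (lnr_plV V) fun i' => h3 _).2 ?_⟩
  · exact div_mem_loc (m := 1) (by simpa using h1 _) (by simpa using h1 i) (by simpa using hi)
  · have h9 := (hb.1.map' (f := E.val) Subtype.val_injective).comp _
      (e.symm.injective.comp (Fin.castLE_injective (show Gj.dm k F - 1 ≤ dim k E by
        rw [dm_eq, hd]; exact h6)))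
    convert h9 using 1
    funext i'
    exact congrArg Subtype.val (hj _)

theorem prm_iff_dg (hH : IsMod H) (hV : Dvs V) {d : ℕ} (hd : dim k F = d + 1) :
    Prm H V ↔ 0 < dg V (List.replicate d H) :=
  ⟨fun h => dg_pos hH h hd, fun h => prm_of_dg hH.free hV hd h.ne'⟩

theorem dg_eq_zero (hH : Free H) (hV : Dvs V) (h : ¬ Prm H V) {d : ℕ} (hd : dim k F = d + 1) :
    dg V (List.replicate d H) = 0 := by_contra fun h0 => h (prm_of_dg hH hV hd h0)

end Crest.Agent.X262.Geo
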