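import Crest.Agent.X262.Geo.Val
import Crest.Agent.X277.Link.DvA

/-!
# Row 262, GEO (helper24), part 2: prime divisors of a smooth model as b-divisors

* `isMod_oP`, `car_iff_On`, `prm_iff_isPD`, `lp_le_loc`, `loc_eq_lp` : the dictionary;
* `dv P V`  : the prime divisor `V` of `P`; `od_dv`, `at_dv`, `mem_Sec_sub_dv`, `one_lt_val_dv`;
* `eq_sum_dv`, `tr P a` (the trace on `P`);
* `bnum_dv` : `V · l = dg V l`; `dg_dv_comm`, `dg_dv_nonneg`.
-/

set_option autoImplicit false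
set_option linter.unusedSectionVars false

noncomputable section

namespace Crest.Agent.X262.Geo

open Crest.Agent.X277 Crest.Agent.X277.BD Crest.Agent.X277.Pst Crest.Agent.X277.BD.Cyc
open Crest.Agent.X277.Lef Crest.Agent.X277.AN.G1
open Crest.Agent.X277.BD.Br (At oP kP)
open Crest.Agent.X277.Cns (Ov)
open Crest.Agent.X277.Link (IsPD FrAt pdiv Eqn Nrm)
open Crest.Agent.X277.Neg (nv nv_triv IsNv isNv_nv le_loc)
open Crest.Agent.X262.Mod (IsMod Car Gz)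
open WithZero Filter _root_.Topology

variable {F : Type} [Field F] [Algebra ℂ F] {P Q : PModel ℂ F} {V W : RZ ℂ F} {a b : BD ℂ F}
  {x : Pts P} {f g s t : F} {l : List (BD ℂ F)} {v : Valuation F ℤᵐ⁰} {i : Fin (P.N + 1)}

theorem eft (P : PModel ℂ F) : Algebra.EssFiniteType ℂ F := by
  have := P.isFractionRing 0
  have := P.finiteType 0
  have : Algebra.EssFiniteType (P.A 0) F :=
    Algebra.EssFiniteType.of_isLocalization F (nonZeroDivisors (P.A 0))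
  exact Algebra.EssFiniteType.comp ℂ (P.A 0) F

/-! ### the dictionary -/

theorem exists_tw_A (hf : f ∈ P.A i) :
    ∃ N0 : ℕ, ∀ N, N0 ≤ N → f * P.y i ^ N ∈ (N • oP P).Sec := by
  simpa using Br.exists_tw_mem (a := 0) (f := f) (i := i) fun V hV => RZ.le_one_iff.2 (hV f hf)

theorem isMod_oP (P : PModel ℂ F) : IsMod (oP P) := ⟨Br.free_oP, fun f => by
  obtain ⟨a, ha, c, hc, h0, rfl⟩ := P.frac' 0 f
  obtain ⟨N, h1⟩ := exists_tw_A ha
  obtain ⟨N', h2⟩ := exists_tw_A hc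
  refine ⟨max N N', _, h2 _ (le_max_right _ _), mul_ne_zero h0 (pow_ne_zero _ (P.y_ne 0)), ?_⟩
  rw [← mul_assoc, div_mul_cancel₀ _ h0]
  exact h1 _ (le_max_left _ _)⟩

theorem val_y (hV : ∀ y ∈ P.A i, y ∈ V.1) : V.v (P.y i) = (oP P).val V :=
  (val_mxf (P.y_ne i) fun l => (RZ.le_iff (P.y_ne i)).2 (hV _ (div_mem_chart P.y i l))).symm

theorem chart_of_val_y (hV : V.v (P.y i) = (oP P).val V) : ∀ y ∈ P.A i, y ∈ V.1 := by
  refine V.2.adjoin_le ?_
  rintro _ ⟨j, rfl⟩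
  exact (RZ.le_iff (P.y_ne i)).1 (hV ▸ Br.y_mem_Sec j V)

theorem div_mem_A {m : ℕ} (hg : g ∈ (m • oP P).Sec) (i : Fin (P.N + 1)) : g / P.y i ^ m ∈ P.A i :=
  mem_A_iff.2 fun _ hx => ((Br.at_y hx).nsmul m).div_mem hg

theorem A_le_loc (hV : ∀ y ∈ P.A i, y ∈ V.1) (hf : f ∈ P.A i) : f ∈ loc (oP P) V :=
  mem_loc_of_chart Br.free_oP (Br.y_mem_Sec i) (val_y hV) fun _ hW => chart_of_val_y hW f hf

theorem exists_den (hV : ∀ y ∈ P.A i, y ∈ V.1) (hf : f ∈ loc (oP P) V) :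
    ∃ c ∈ P.A i, V.v c = 1 ∧ c * f ∈ P.A i := by
  obtain ⟨m, g, h1, h2, h3⟩ := hf
  refine ⟨g / P.y i ^ m, div_mem_A h1 i, ?_, ?_⟩
  · rw [map_div₀, map_pow, val_y hV, h2, val_nsmul, div_self (pow_ne_zero _ (val_ne _ _))]
  · rw [div_mul_eq_mul_div, mul_comm]
    exact div_mem_A h3 i

theorem lp_le_loc (hV : Ov x V.1) (hf : f ∈ (lp x).O) : f ∈ loc (oP P) V := by
  obtain ⟨i, hi⟩ := exists_pat x
  obtain ⟨a, ha, c, hc, h0, h1⟩ := (mem_lp_iff hi).1 hf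
  have h2 : ∀ y ∈ P.A i, y ∈ V.1 := fun y hy => hV y (A_le hi hy)
  rw [(eq_div_iff (LP.ne_zero_of_ne h0)).2 h1, div_eq_mul_inv]
  exact mul_mem (A_le_loc h2 ha) (Neg.inv_mem_loc (A_le_loc h2 hc) (Br.ev_ne_iff'.1 h0 V hV))

/-- the local ring at the centre of a valuation which dominates a point -/
theorem loc_eq_lp (hV : Ov x V.1) (hd : ∀ f ∈ (lp x).O, V.v f = 1 ↔ ev f x ≠ 0) :
    f ∈ loc (oP P) V ↔ f ∈ (lp x).O := by
  refine ⟨fun ⟨m, g, h1, h2, h3⟩ => ?_, lp_le_loc hV⟩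
  obtain ⟨i, hi⟩ := exists_pat x
  have h4 := (((Br.at_y hi).nsmul m).of_dom hV hd h1 h2).div_mem h3
  rwa [mul_div_cancel_right₀ _ (ne_of_val h2)] at h4

theorem gz_of_dom (hV : Ov x V.1) (hd : ∀ f ∈ (lp x).O, V.v f = 1 ↔ ev f x ≠ 0) :
    Gz (oP P) V W ↔ Ov x W.1 := by
  rw [Mod.gz_iff Br.free_oP]
  exact forall_congr' fun f => imp_congr_left (loc_eq_lp hV hd)

theorem ov_of_gz (hV : Ov x V.1) (h : Gz (oP P) V W) : Ov x W.1 :=
  fun f hf => (Mod.gz_iff Br.free_oP).1 h f (lp_le_loc hV hf)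

theorem gz_iff_ov : Gz (oP P) V W ↔ ∀ x : Pts P, Ov x V.1 → Ov x W.1 := by
  refine ⟨fun h _ hV => ov_of_gz hV h, fun h m g h1 h2 => ?_⟩
  obtain ⟨i, h3, h4⟩ := Br.exists_chart (P := P) V
  have h5 : V.v (g / P.y i ^ m) = 1 := by
    rw [map_div₀, map_pow, h3, h2, val_nsmul, div_self (pow_ne_zero _ (val_ne _ _))]
  obtain ⟨φ, h6, h7⟩ := KT.exists_point_of_isPrime (𝕜 := ℂ)
    ((IsLocalRing.maximalIdeal V.1).comap ((P.A i).val.toRingHom.codRestrict V.1 fun y => h4 y y.2))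
    inferInstance ⟨_, div_mem_A h1 i⟩ fun h6 =>
      ((V.1.valuation_lt_one_iff _).1 (Ideal.mem_comap.1 h6)).ne h5
  obtain ⟨x, hx, h8⟩ := exists_pt i φ
  have h9 : Ov x V.1 := fun f hf => by
    obtain ⟨a, ha, c, hc, h0, h10⟩ := (mem_lp_iff hx).1 hf
    have h11 : V.v c = 1 := by
      refine le_antisymm (RZ.le_one_iff.2 (h4 c hc)) (not_lt.1 fun h12 => h0 ?_)
      exact (h8 ⟨c, hc⟩).trans (h6 _ (Ideal.mem_comap.2 ((V.1.valuation_lt_one_iff _).2 h12)))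
    have h12 := RZ.le_one_iff.2 (h4 a ha)
    rwa [← h10, map_mul, h11, mul_one, RZ.le_one_iff] at h12
  exact ((Br.at_y hx).nsmul m).of_ev' ((h8 ⟨_, div_mem_A h1 i⟩).trans_ne h7) W (h x h9)

theorem car_iff_On : Car (oP P) a ↔ a ∈ Br.On P := by
  refine ⟨fun h x => ?_, fun h => ?_⟩
  · obtain ⟨V, h1, h2⟩ := Br.exists_dom x
    obtain ⟨g, -, h3⟩ := h.exists_gen Br.free_oP V
    exact ⟨g, fun W hW => h3 W ((gz_of_dom h1 h2).2 hW)⟩
  · obtain ⟨m, h1⟩ := Br.serre h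
    obtain ⟨n, h2⟩ := Br.serre (neg_mem h)
    exact Mod.car_of Br.free_oP (add_comm a _ ▸ h1 m le_rfl) (neg_add_eq_sub a _ ▸ h2 n le_rfl)

theorem car_of_On (h : a ∈ Br.On P) : Car (oP P) a := car_iff_On.2 h

theorem prm_of_isPD (h : IsPD P v) : Prm (oP P) (rz v h.triv) := by
  have := eft P
  have h1 := isNv_rz h.triv h.nrm
  refine prm_of_loc (isMod_oP P) h1 fun f hf => ?_
  obtain ⟨i, hi⟩ := h.loc
  obtain ⟨c, h2, h3, h4⟩ := hi.den f (h1.le_one.2 hf)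
  have h5 : ∀ y ∈ P.A i, y ∈ (rz v h.triv).1 := fun y hy => h1.le_one.1 (hi.le y hy)
  have h6 := mul_mem (Neg.inv_mem_loc (A_le_loc h5 h2) (h1.eq_one.1 h3)) (A_le_loc h5 h4)
  rwa [inv_mul_cancel_left₀ (Link.ne_of_v_one h3)] at h6

theorem isPD_nv (h : Prm (oP P) V) : IsPD P (nv V) := by
  have := eft P
  obtain ⟨i, -, hi⟩ := Br.exists_chart (P := P) V
  refine ⟨nv_unif h.dvs, i, fun y hy => (nv_le_one h.dvs).2 (hi y hy), fun f hf => ?_⟩
  obtain ⟨c, h1, h2, h3⟩ := exists_den hi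
    (le_loc Br.free_oP (isMod_oP P).bir h ((nv_le_one h.dvs).1 hf))
  exact ⟨c, h1, (nv_eq_one h.dvs).2 h2, h3⟩

theorem prm_iff_isPD (hV : Dvs V) : Prm (oP P) V ↔ IsPD P (nv V) := by
  have := eft P
  exact ⟨isPD_nv, fun h => rz_nv hV ▸ prm_of_isPD h⟩

theorem isPD_iff_prm (hv : ∀ c : ℂ, v (algebraMap ℂ F c) ≤ 1) (hu : Nrm v) :
    IsPD P v ↔ Prm (oP P) (rz v hv) :=
  ⟨prm_of_isPD, fun h => nv_rz hv hu ▸ isPD_nv h⟩

theorem prm_up (h : oP P ∈ Br.On Q) (hV : Prm (oP P) V) : Prm (oP Q) V := (car_of_On h).prm hV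

theorem on_nv (hV : Dvs V) : Res.Log.On (nv V) x ↔ Ov x V.1 := by
  have := eft P
  exact forall₂_congr fun _ _ => nv_le_one hV

theorem exists_ov (V : RZ ℂ F) : ∃ x : Pts P, Ov x V.1 := Br.exists_ov' P V

theorem forall_pd {p : Valuation F ℤᵐ⁰ → Prop} (h : ∀ V, Prm (oP P) V → Ov x V.1 → p (nv V))
    (hv : IsPD P v) (hx : Res.Log.On v x) : p v :=
  nv_rz hv.triv hv.nrm ▸ h _ (prm_of_isPD hv) fun f hf => hx f hf

theorem mem_lp_of_prm (h : ∀ V, Prm (oP P) V → Ov x V.1 → f ∈ V.1) : f ∈ (lp x).O := by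
  have := eft P
  exact Link.mem_lp_of_v fun v hv hx => forall_pd (p := fun v => v f ≤ 1)
    (fun V hV h1 => (nv_le_one hV.dvs).2 (h V hV h1)) hv hx

theorem ev_ne_of_prm (hf : f ≠ 0) (h : ∀ V, Prm (oP P) V → Ov x V.1 → V.v f = 1) : ev f x ≠ 0 := by
  have := eft P
  exact (Link.ev_ne_iff hf).2 fun e he => forall_pd (p := fun v => v f = 1)
    (fun V hV h1 => (nv_eq_one hV.dvs).2 (h V hV h1)) e.2 he

theorem at_of_prm (ha : a ∈ Br.On P) (hg : g ≠ 0)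
    (h : ∀ V, Prm (oP P) V → Ov x V.1 → V.v g = a.val V) : At a x g := by
  obtain ⟨g', hg'⟩ := ha x
  exact hg'.of_ev' (ev_ne_of_prm (div_ne_zero hg hg'.ne) fun V hV hx => by
    rw [map_div₀, h V hV hx, hg' V hx, div_self (a.val_ne V)])

theorem nv_of_at (h : At a x g) (hV : Dvs V) (hx : Ov x V.1) : nv V g = exp (od V a) := by
  have := eft P
  exact (eq_od_iff hV).2 (h V hx)

theorem at_of_od (ha : a ∈ Br.On P) (hg : g ≠ 0)
    (h : ∀ V, Prm (oP P) V → Ov x V.1 → nv V g = exp (od V a)) : At a x g := by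
  have := eft P
  exact at_of_prm ha hg fun V hV hx => (eq_od_iff hV.dvs).1 (h V hV hx)

theorem exists_eqn (hV : Prm (oP P) V) (hx : Ov x V.1) : ∃ t, Eqn (lp x).O (nv V) t :=
  (isPD_nv hV).exists_eqn ((on_nv hV.dvs).2 hx)

theorem mem_Sec_On (ha : a ∈ Br.On P) (h : ∀ V, Prm (oP P) V → nv V s ≤ exp (od V a)) :
    s ∈ a.Sec := have := eft P; mem_Sec_of_od (isMod_oP P) (car_of_On ha) h

theorem le_On (ha : a ∈ Br.On P) (hb : b ∈ Br.On P) (h : ∀ V, Prm (oP P) V → od V a ≤ od V b) :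
    a ≤ b := have := eft P; le_of_od (isMod_oP P) (car_of_On ha) (car_of_On hb) h

theorem eq_On (ha : a ∈ Br.On P) (hb : b ∈ Br.On P) (h : ∀ V, Prm (oP P) V → od V a = od V b) :
    a = b := have := eft P; eq_of_od (isMod_oP P) (car_of_On ha) (car_of_On hb) h

theorem nonneg_On (ha : a ∈ Br.On P) (h : ∀ V, Prm (oP P) V → 0 ≤ od V a) : 0 ≤ a :=
  le_On (zero_mem _) ha (by simpa using h)

/-- negativity: a nef class is bounded by a class of the model which bounds its trace -/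
theorem le_of_nef (ha : Nef a) (hb : b ∈ Br.On P) (h : ∀ V, Prm (oP P) V → od V a ≤ od V b) :
    a ≤ b := have := eft P; (car_of_On hb).le_of_nef (isMod_oP P) ha (leOn_iff.2 h)

/-! ### prime divisors -/

theorem exists_cut (e : (pdiv P).ι) (x : Pts P) : ∃ N0 : ℕ, ∀ᶠ x' in 𝓝 x, ∀ N, N0 ≤ N →
    ∃ f ∈ (N • oP P).Sec, (∀ j, (∀ y ∈ P.A j, e.1 y ≤ 1) → e.1 (f / P.y j ^ N) < 1) ∧
      ∃ j, x' ∈ pat P j ∧ FrAt (Finsupp.single e (-1)) x' (f / P.y j ^ N) := by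
  classical
  obtain ⟨i, hi⟩ := exists_pat x
  obtain ⟨c, h1, h2, h3⟩ : ∃ c ∈ P.A i, ((∀ y ∈ P.A i, e.1 y ≤ 1) → e.1 c < 1) ∧
      FrAt (Finsupp.single e (-1)) x c := by
    by_cases h : Res.Log.On e.1 x
    · obtain ⟨t, ht⟩ := e.2.exists_eqn h
      obtain ⟨a, ha, c, -, h0, h1⟩ := (mem_lp_iff hi).1 ht.mem
      have h2 := ht.of_unit (LP.mem_of_ne h0) (LP.ne_zero_of_ne h0) ((lp x).inv_mem h0)
      rw [mul_comm, h1] at h2
      exact ⟨a, ha, fun _ => h2.lt, h2.frAt⟩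
    · obtain ⟨c, hc, h1, h2⟩ := Res.Log.exists_sep hi h
      refine ⟨c, hc, fun h3 => lt_of_le_of_ne (h3 c hc) fun h4 => ?_,
        (Link.frAt_zero_iff.2 h1).congr fun e' he' => ?_⟩
      · obtain ⟨y, h5, h6, h7⟩ := Link.exists_on h3 hc h4
        exact h7 (h2 y h5 h6)
      · rw [Finsupp.single_eq_of_ne (fun h1 : e' = e => h (h1 ▸ he'))]
        rfl
  obtain ⟨N0, h4⟩ := exists_tw_A h1
  refine ⟨N0 + 1, ?_⟩
  filter_upwards [h3.eventually, (isOpen_pat P i).mem_nhds hi] with x' h5 h6 N hN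
  refine ⟨_, h4 N (by omega), fun j hj => ?_, i, h6, ?_⟩
  · by_cases h7 : ∀ y ∈ P.A i, e.1 y ≤ 1
    · rw [mul_div_assoc, ← div_pow, map_mul, map_pow, Link.v_y P h7 hj, one_pow, mul_one]
      exact h2 h7
    · obtain ⟨M, rfl⟩ := Nat.exists_eq_add_of_lt (show 0 < N by omega)
      have h8 : e.1 (P.y i / P.y j) < 1 := by
        refine lt_of_le_of_ne (hj _ (div_mem_chart P.y j i)) fun h8 => h7 ?_
        refine (Link.chart_le_iff P e.2.triv).2 fun l => ?_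
        rw [(Link.v_div_eq (P.y_ne j)).1 h8]
        exact (Link.chart_le_iff P e.2.triv).1 hj l
      rw [pow_succ, pow_succ, ← mul_assoc, mul_div_mul_comm, map_mul]
      exact (mul_le_of_le_one_left' (hj _ (div_mem_A (h4 _ (by omega)) j))).trans_lt h8
  · rwa [mul_div_cancel_right₀ _ (pow_ne_zero _ (P.y_ne i))]

theorem exists_dv (e : (pdiv P).ι) :
    ∃ a : BD ℂ F, ∀ (x : Pts P) (t : F), FrAt (Finsupp.single e (-1)) x t → At a x t⁻¹ := by
  classical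
  choose G hG using Link.exists_frAt_single e
  choose i hi using fun x : Pts P => exists_pat x
  choose N0 h using exists_cut e
  obtain ⟨T, -, hT⟩ := isCompact_univ.elim_nhds_subcover _ fun x _ => h x
  obtain ⟨a, ha⟩ := Br.exists_of_tw (G := G) (fun x => (Br.at_y (hi x)).nsmul (T.sup N0))
    (fun x => (hG x).eventually.mono fun y hy => (hG y).iff_ev.1 hy) fun x => by
      obtain ⟨z, hz, h1⟩ := Set.mem_iUnion₂.1 (hT (Set.mem_univ x))
      obtain ⟨f, h2, h3, j, h4, h5⟩ := h1 _ (Finset.le_sup hz)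
      refine ⟨f, fun y => ?_, ?_⟩
      · rw [mul_comm, ← div_div]
        refine (hG y).mem_iff.2 fun e' he' => ?_
        by_cases h6 : e' = e
        · subst h6
          rw [Finsupp.single_eq_same]
          exact Link.lt_one_iff_le.1 (h3 _ (Link.on_chart he' (hi y)))
        · rw [Finsupp.single_eq_of_ne h6]
          exact he' _ (A_le (hi y) (div_mem_A h2 _))
      · refine Br.ev_ne_iff'.2 fun V hV => ?_
        have h6 := Br.v_eq_of_ev ((hG x).iff_ev.1 h5) hV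
        rw [map_div₀, map_mul, ← h6, (Br.at_y (hi x)).nsmul _ V hV, ← (Br.at_y h4).nsmul _ V hV,
          ← map_mul, div_mul_cancel₀ _ (pow_ne_zero _ (P.y_ne j)), div_self]
        exact RZ.ne_zero_iff.2 fun h7 => h5.ne (by rw [h7, zero_div])
  exact ⟨-a, fun x t ht => ((ha x).of_ev' ((hG x).iff_ev.1 ht)).neg⟩

open Classical in
variable (P) in
/-- the prime divisor `V` of the smooth model `P` -/
def dv (V : RZ ℂ F) : BD ℂ F :=
  if h : Prm (oP P) V then (exists_dv ⟨nv V, isPD_nv h⟩).choose else 0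

theorem dv_of_not (h : ¬ Prm (oP P) V) : dv P V = 0 := dif_neg h

theorem at_dv' (hV : Prm (oP P) V) (h : FrAt (Finsupp.single ⟨nv V, isPD_nv hV⟩ (-1)) x t) :
    At (dv P V) x t⁻¹ := by
  rw [dv, dif_pos hV]
  exact (exists_dv _).choose_spec x t h

theorem at_dv (hV : Prm (oP P) V) (h : Eqn (lp x).O (nv V) t) : At (dv P V) x t⁻¹ :=
  at_dv' hV (Eqn.frAt (e := ⟨nv V, isPD_nv hV⟩) h)

theorem at_dv_off (h : ¬ Ov x V.1) : At (dv P V) x 1 := by
  classical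
  by_cases hV : Prm (oP P) V
  · rw [← inv_one]
    refine at_dv' hV (Link.frAt_one.congr fun e he => ?_)
    exact (Finsupp.single_eq_of_ne (M := ℤ) fun h1 : e = ⟨nv V, isPD_nv hV⟩ =>
      h ((on_nv hV.dvs).1 (by rw [h1] at he; exact he))).symm
  · rw [dv_of_not hV]
    exact Br.at_zero x

theorem dv_mem (V : RZ ℂ F) : dv P V ∈ Br.On P := fun x => by
  by_cases hV : Prm (oP P) V
  · exact (Link.exists_frAt_single _ x).elim fun t ht => ⟨_, at_dv' hV ht⟩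
  · exact ⟨1, dv_of_not hV ▸ Br.at_zero x⟩

theorem od_dv_self (hV : Prm (oP P) V) : od V (dv P V) = 1 := by
  obtain ⟨x, hx⟩ := exists_ov (P := P) V
  obtain ⟨t, ht⟩ := exists_eqn hV hx
  rw [← exp_inj, ← nv_of_at (at_dv hV ht) hV.dvs hx, map_inv₀, ht.val, ← exp_neg, neg_neg]

theorem od_dv_ne (hW : Prm (oP P) W) (h : W ≠ V) : od W (dv P V) = 0 := by
  have := eft P
  obtain ⟨x, hx⟩ := exists_ov (P := P) W
  by_cases hV : Prm (oP P) V
  · by_cases h1 : Ov x V.1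
    · obtain ⟨t, ht⟩ := exists_eqn hV h1
      rw [← exp_inj, ← nv_of_at (at_dv hV ht) hW.dvs hx, map_inv₀, ht.v_ne (isPD_nv hW)
        ((on_nv hW.dvs).2 hx) fun h2 => h ?_, inv_one, exp_zero]
      rw [← rz_nv hW.dvs, ← rz_nv hV.dvs]
      congr 1
    · rw [← exp_inj, ← nv_of_at (at_dv_off h1) hW.dvs hx, map_one, exp_zero]
  · rw [dv_of_not hV, map_zero]

open Classical in
theorem od_dv (hW : Prm (oP P) W) (V : RZ ℂ F) : od W (dv P V) = if W = V then 1 else 0 := by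
  split_ifs with h
  · exact h ▸ od_dv_self hW
  · exact od_dv_ne hW h

theorem dv_nonneg (V : RZ ℂ F) : 0 ≤ dv P V :=
  nonneg_On (dv_mem V) fun W hW => by rw [od_dv hW]; split_ifs <;> simp

theorem val_dv_ne (hW : Prm (oP P) W) (h : W ≠ V) : (dv P V).val W = 1 :=
  have := eft P; (od_eq_zero hW.dvs).1 (od_dv_ne hW h)

theorem eq_dv (ha : a ∈ Br.On P) (h1 : od V a = 1)
    (h2 : ∀ W, Prm (oP P) W → W ≠ V → od W a = 0) : a = dv P V :=
  eq_On ha (dv_mem V) fun W hW => by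
    rw [od_dv hW]
    split_ifs with h
    · exact h ▸ h1
    · exact h2 W hW h

theorem eqn_of_at (hV : Prm (oP P) V) (hx : Ov x V.1) (h : At (dv P V) x t⁻¹) :
    Eqn (lp x).O (nv V) t := by
  obtain ⟨s, hs⟩ := exists_eqn hV hx
  have h1 := (at_dv hV hs).ev_div_ne h
  have h2 := hs.of_unit (LP.mem_of_ne h1) (LP.ne_zero_of_ne h1) ((lp x).inv_mem h1)
  rwa [inv_div_inv, div_mul_cancel₀ _ hs.ne] at h2

/-- a section which vanishes along `V` -/
theorem mem_Sec_sub_dv (ha : a ∈ Br.On P) (hs : s ∈ a.Sec) (h : V.v s < a.val V) :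
    s ∈ (a - dv P V).Sec := by
  have := eft P
  refine mem_Sec_On (sub_mem ha (dv_mem V)) fun W hW => ?_
  rw [map_sub, od_dv hW]
  split_ifs with h1
  · subst h1
    have h2 : nv W s < exp (od W a) :=
      lt_of_le_of_ne (le_exp_od hs) ((eq_od_iff hW.dvs).not.2 h.ne)
    rcases eq_or_ne s 0 with rfl | h0
    · simp
    · rw [← exp_log (Link.v_ne (v := nv W) h0), exp_lt_exp] at h2
      rw [← exp_log (Link.v_ne (v := nv W) h0), exp_le_exp]
      omega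
  · rw [sub_zero]
    exact le_exp_od hs

theorem le_sub_dv (ha : a ∈ Br.On P) (hb : b ∈ Br.On P) (h : a ≤ b) (h1 : od V a < od V b) :
    a ≤ b - dv P V :=
  le_On ha (sub_mem hb (dv_mem V)) fun W hW => by
    rw [map_sub, od_dv hW]
    split_ifs with h2
    · subst h2
      omega
    · simpa using od_mono h

theorem nsmul_dv_le (ha : a ∈ Br.On P) (h0 : 0 ≤ a) : od V a • dv P V ≤ a :=
  le_On (zsmul_mem (dv_mem V) _) ha fun W hW => by
    rw [map_zsmul, od_dv hW]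
    split_ifs with h
    · simp [h]
    · simpa using od_nonneg h0

/-- the support of the prime divisor -/
theorem one_lt_val_dv (hV : Prm (oP P) V) : 1 < (dv P V).val W ↔ Gz (oP P) W V := by
  have := eft P
  refine ⟨fun h m g h1 h2 => by_contra fun h3 => ?_, fun h => ?_⟩
  · have h4 := mem_Sec_sub_dv (nsmul_mem Br.oP_mem m) h1 (lt_of_le_of_ne (h1 V) h3) W
    rw [val_sub, h2, le_div_iff₀ (val_pos _ _), mul_le_iff_le_one_right (val_pos _ _)] at h4
    exact h4.not_gt h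
  · refine lt_of_le_of_ne (dv_nonneg V W) fun h1 => ?_
    have h2 := (car_of_On (dv_mem (P := P) V)).neg.rsa.val_eq_one (neg_nonpos.2 (dv_nonneg V)) h
      (by rw [val_neg, ← h1, inv_one])
    rw [← od_eq_zero hV.dvs, map_neg, od_dv_self hV] at h2
    omega

theorem one_lt_val_dv_self (hV : Prm (oP P) V) : 1 < (dv P V).val V := (one_lt_val_dv hV).2 Gz.rfl

theorem od_dv_pos (hV : Prm (oP P) V) (hW : Dvs W) : 0 < od W (dv P V) ↔ Gz (oP P) W V := by
  have := eft P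
  rw [← one_lt_val_dv hV, ← map_zero (od W), od_lt_iff hW, val_zero]

theorem lt_of_mem_sub_dv (hV : Prm (oP P) V) (hs : s ∈ (a - dv P V).Sec) : V.v s < a.val V :=
  (hs V).trans_lt (by
    rw [val_sub, div_lt_iff₀ (val_pos _ _), lt_mul_iff_one_lt_right (val_pos _ _)]
    exact one_lt_val_dv_self hV)

theorem od_sum_dv (hW : Prm (oP P) W) (T : Finset (RZ ℂ F)) (c : RZ ℂ F → ℤ) (h : W ∉ T → c W = 0) :
    od W (∑ V ∈ T, c V • dv P V) = c W := by
  classical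
  simp only [map_sum, map_zsmul, od_dv hW, smul_eq_mul, mul_ite, mul_one, mul_zero,
    Finset.sum_ite_eq]
  split_ifs with h1
  · rfl
  · exact (h h1).symm

theorem sum_dv_mem (T : Finset (RZ ℂ F)) (c : RZ ℂ F → ℤ) : ∑ V ∈ T, c V • dv P V ∈ Br.On P :=
  sum_mem fun V _ => zsmul_mem (dv_mem V) _

/-- a divisor on `P` is the sum of its components -/
theorem eq_sum_dv (ha : a ∈ Br.On P) {T : Finset (RZ ℂ F)}
    (h : ∀ V, Prm (oP P) V → od V a ≠ 0 → V ∈ T) : a = ∑ V ∈ T, od V a • dv P V :=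
  eq_On ha (sum_dv_mem _ _) fun W hW =>
    (od_sum_dv hW T (fun V => od V a) fun h1 => by_contra fun h2 => h1 (h W hW h2)).symm

variable (P) in
/-- the components of the trace of `a` on `P` -/
def sp (a : BD ℂ F) : Finset (RZ ℂ F) := have := eft P; (fin_od (isMod_oP P) a).toFinset

theorem mem_sp : V ∈ sp P a ↔ Prm (oP P) V ∧ od V a ≠ 0 := Set.Finite.mem_toFinset _

theorem eq_sum_sp (ha : a ∈ Br.On P) : a = ∑ V ∈ sp P a, od V a • dv P V :=
  eq_sum_dv ha fun _ h1 h2 => mem_sp.2 ⟨h1, h2⟩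

theorem od_sum_sp (hW : Prm (oP P) W) (a : BD ℂ F) :
    od W (∑ V ∈ sp P a, od V a • dv P V) = od W a :=
  od_sum_dv hW _ (fun V => od V a) fun h1 => by_contra fun h2 => h1 (mem_sp.2 ⟨hW, h2⟩)

variable (P) in
/-- the trace of a b-divisor on `P` -/
def tr : BD ℂ F →+ BD ℂ F :=
  AddMonoidHom.mk' (fun a => ∑ V ∈ sp P a, od V a • dv P V) fun a b =>
    eq_On (sum_dv_mem _ _) (add_mem (sum_dv_mem _ _) (sum_dv_mem _ _)) fun W hW => by
      rw [map_add, od_sum_sp hW, od_sum_sp hW, od_sum_sp hW, map_add]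

theorem tr_mem (a : BD ℂ F) : tr P a ∈ Br.On P := sum_dv_mem _ _

theorem od_tr (hV : Prm (oP P) V) (a : BD ℂ F) : od V (tr P a) = od V a := od_sum_sp hV a

theorem eq_tr (ha : a ∈ Br.On P) (h : ∀ V, Prm (oP P) V → od V a = od V b) : a = tr P b :=
  eq_On ha (tr_mem b) fun V hV => (h V hV).trans (od_tr hV b).symm

theorem tr_eq (ha : a ∈ Br.On P) : tr P a = a := (eq_tr ha fun _ _ => rfl).symm

theorem tr_mono (h : a ≤ b) : tr P a ≤ tr P b :=
  le_On (tr_mem a) (tr_mem b) fun V hV => by rw [od_tr hV, od_tr hV]; exact od_mono h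

theorem tr_nonneg (h : 0 ≤ a) : 0 ≤ tr P a := map_zero (tr P) ▸ tr_mono h

theorem Sec_le_tr (a : BD ℂ F) : a.Sec ≤ (tr P a).Sec :=
  fun _ hs => mem_Sec_On (tr_mem a) fun _ hV => od_tr hV a ▸ le_exp_od hs

theorem le_tr (ha : Nef a) : a ≤ tr P a := le_of_nef ha (tr_mem a) fun _ hV => (od_tr hV a).ge

theorem Lin.tr (h : Lin a b) : Lin (tr P a) (tr P b) := by
  obtain ⟨f, hf, rfl⟩ := h
  exact ⟨f, hf, by rw [map_add, tr_eq (Br.pr_mem f)]⟩

theorem tr_congr (h : ∀ V, Prm (oP P) V → od V a = od V b) : tr P a = tr P b :=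
  eq_tr (tr_mem a) fun V hV => (od_tr hV a).trans (h V hV)

theorem tr_tr (h : oP P ∈ Br.On Q) (a : BD ℂ F) : tr P (tr Q a) = tr P a :=
  tr_congr fun _ hV => od_tr (prm_up h hV) a

theorem tr_dv (h : oP P ∈ Br.On Q) (V : RZ ℂ F) : tr P (dv Q V) = dv P V :=
  (eq_tr (dv_mem V) fun W hW => by rw [od_dv hW, od_dv (prm_up h hW)]).symm

/-- the strict transform is bounded by the total transform -/
theorem dv_le (h : oP P ∈ Br.On Q) (hV : Prm (oP P) V) : dv Q V ≤ dv P V := by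
  have h1 := nsmul_dv_le (V := V) (Br.On_le_iff.2 h (dv_mem V)) (dv_nonneg V)
  rwa [od_dv_self hV, one_smul] at h1

/-! ### intersection numbers -/

section Num

variable [Algebra.EssFiniteType ℂ F]

theorem bnum_On (ha : a ∈ Br.On P) (hl : ∀ b ∈ l, b ∈ Br.On P) {T : Finset (RZ ℂ F)}
    (h1 : ∀ V ∈ T, Prm (oP P) V) (h2 : ∀ V, Prm (oP P) V → od V a ≠ 0 → V ∈ T) :
    bnum (a :: l) = ∑ V ∈ T, od V a * dg V l :=
  bnum_cyc (isMod_oP P) (car_of_On ha) (fun b hb => car_of_On (hl b hb)) h1 h2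

theorem bnum_sp (ha : a ∈ Br.On P) (hl : ∀ b ∈ l, b ∈ Br.On P) :
    bnum (a :: l) = ∑ V ∈ sp P a, od V a * dg V l :=
  bnum_On ha hl (fun _ h => (mem_sp.1 h).1) fun _ h1 h2 => mem_sp.2 ⟨h1, h2⟩

/-- **the degree on a prime divisor** -/
theorem bnum_dv (hV : Prm (oP P) V) (hl : ∀ b ∈ l, b ∈ Br.On P) : bnum (dv P V :: l) = dg V l := by
  rw [bnum_On (dv_mem V) hl (T := {V}) (by simpa using hV) fun W hW h =>
    Finset.mem_singleton.2 (by_contra fun h1 => h (od_dv_ne hW h1)), Finset.sum_singleton,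
    od_dv_self hV, one_mul]

theorem dg_On (hV : Prm (oP P) V) (ha : a ∈ Br.On P) (hl : ∀ b ∈ l, b ∈ Br.On P) :
    dg V (a :: l) = bnum (a :: dv P V :: l) := by
  rw [← bnum_dv hV (List.forall_mem_cons.2 ⟨ha, hl⟩)]
  exact bnum_perm (List.Perm.swap _ _ _)

theorem dg_dv_comm (hV : Prm (oP P) V) (hW : Prm (oP P) W) (hl : ∀ b ∈ l, b ∈ Br.On P) :
    dg V (dv P W :: l) = dg W (dv P V :: l) := by
  rw [dg_On hV (dv_mem W) hl, bnum_dv hW (List.forall_mem_cons.2 ⟨dv_mem V, hl⟩)]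

theorem dg_dv_nonneg (hV : Prm (oP P) V) (h : V ≠ W) (hl : ∀ b ∈ l, Nef b) :
    0 ≤ dg V (dv P W :: l) := dg_nonneg_of (dv_nonneg W) (val_dv_ne hV h) hl

theorem dg_oP_pos (hV : Prm (oP P) V) {d : ℕ} (hd : dim ℂ F = d + 1) :
    0 < dg V (List.replicate d (oP P)) := dg_pos (isMod_oP P) hV hd

/-- the degree of a class only depends on its trace, if the other classes live on `P` and
exceptional divisors have degree zero -/
theorem bnum_tr (hl : ∀ V, Dvs V → ¬ Prm (oP P) V → dg V l = 0) (a : BD ℂ F) :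
    bnum (tr P a :: l) = bnum (a :: l) := by
  rw [← sub_eq_zero, ← bnum_sub]
  exact bnum_eq_zero fun V hV h => hl V hV fun h1 => h (by rw [map_sub, od_tr h1, sub_self])

end Num

end Crest.Agent.X262.Geo
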