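import Crest.Agent.X262.Geo.Dv
import Crest.Agent.X262.Sark27.Term
import Crest.Agent.X262.Loc95.Can
import Crest.Agent.X262.Loc95.Slc
import Crest.Agent.X277.Link.Res

/-!
# Row 262, GEO (helper24), part 3: adjunction for an arbitrary prime divisor

* `exists_ad`, `jac_le_ad` : adapted coordinates at a divisorial valuation;
* `Rs q b b' g` : the form `g b` has a simple pole along `q` with residue `b'`; `exists_rs`;
* `seid` : a derivation which preserves a ring preserves its normalisation;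
* `Rs.val`, `Rs.adj`, `Rs.leOn` : **adjunction** on the normalisation of a prime divisor;
* `dg_car`, `bnum_exc`, `adj_num`, `adj_crv` : numerical forms.
-/

set_option autoImplicit false
set_option linter.unusedSectionVars false

open scoped KaehlerDifferential

noncomputable section

namespace Crest.Agent.X262.Geo

open Crest.Agent.X277 Crest.Agent.X277.BD Crest.Agent.X277.Pst Crest.Agent.X277.BD.Cyc
open Crest.Agent.X277.Lef Crest.Agent.X277.AN.G1
open Crest.Agent.X277.BD.Br (At oP kP)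
open Crest.Agent.X277.Cns (Ov)
open Crest.Agent.X277.Link (Plc Eqn)
open Crest.Agent.X277.Neg (nv nv_triv IsNv isNv_nv le_loc)
open Crest.Agent.X262.Mod (IsMod Car Gz LeOn EqOn)
open Crest.Agent.X262.Loc (cf dl gn kC IsRel)
open Crest.Agent.R276.DivVal_858 (ResInd IsUnif)
open WithZero Module
open List (replicate)

section Gen

variable {k F E : Type} [Field k] [Field F] [Field E] [Algebra k F] [Algebra k E] [CharZero k]
  {n : ℕ} {V : RZ k F} {t g : F} {q : Pl k F k E} {H a : BD k F} {l : List (BD k F)}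

/-- `g b` has a simple pole along `q` with residue `b'` -/
structure Rs (q : Pl k F k E) (b : Basis (Fin (n + 1)) F Ω[F⁄k]) (b' : Basis (Fin n) E Ω[E⁄k])
    (g : F) : Prop where
  ne : g ≠ 0
  mem : ∀ t, nv q.V t = exp (-1) → ∀ c, (∀ i, c i ∈ q.V.1) → jac b c / (t * g) ∈ q.V.1
  res : ∀ t y, nv q.V t = exp (-1) → (∀ i, y i ∈ q.V.1) →
    q.r (jac b (Fin.cons t y) / (t * g)) = jac b' fun i => q.r (y i)

theorem v_der_eq {v : Valuation E ℤᵐ⁰} (hk : ∀ c : k, v (algebraMap k E c) ≤ 1)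
    {δ : Derivation k E E} {π : E} (hπ : v π = exp (-1)) (h1 : ∀ f, v f ≤ 1 → v (δ f) ≤ 1)
    (h2 : v (δ π) = 1) {f : E} (hf : f ≠ 0) (h : log (v f) ≠ 0) : v (δ f) = exp 1 * v f := by
  obtain ⟨u, hu, h3⟩ := Link.der_div_eq δ hπ hf
  have h4 : v ((-log (v f) : ℤ) : E) = 1 := by
    have h5 : ((-log (v f) : ℤ) : k) ≠ 0 := Int.cast_ne_zero.2 (neg_ne_zero.2 h)
    rw [← map_intCast (algebraMap k E)]
    exact Link.v_eq_one ((map_ne_zero _).2 h5) (hk _) (map_inv₀ (algebraMap k E) _ ▸ hk _)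
  have h5 : v (((-log (v f) : ℤ) : E) * (δ π / π)) = exp 1 := by
    rw [map_mul, h4, map_div₀, h2, hπ, one_mul, one_div, ← exp_neg, neg_neg]
  rw [← div_eq_iff (Link.v_ne hf), ← map_div₀, h3, Valuation.map_add_eq_of_lt_left _ ?_, h5]
  rw [h5, map_div₀, hu, div_one]
  exact (h1 u hu.le).trans_lt (by rw [← exp_zero, exp_lt_exp]; omega)

/-- **Seidenberg** -/
theorem seid {v : Valuation E ℤᵐ⁰} (hk : ∀ c : k, v (algebraMap k E c) ≤ 1)
    {δ : Derivation k E E} {π : E} (hπ : v π = exp (-1)) (h1 : ∀ f, v f ≤ 1 → v (δ f) ≤ 1)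
    (h2 : v (δ π) = 1) {A : Set E} (hA : ∀ x ∈ A, v x ≤ 1)
    (hf : ∃ x ∈ A, ∃ y ∈ A, π = x / y) {c : E} (hc : ∀ x ∈ A, c * δ x ∈ A) : v c ≤ 1 := by
  by_contra h
  have h0 : c ≠ 0 := fun h0 => h (by simp [h0])
  have h3 : 0 < log (v c) := by
    rwa [not_le, ← exp_log (Link.v_ne (v := v) h0), ← exp_zero, exp_lt_exp] at h
  have key : ∀ m : ℕ, ∀ x ∈ A, v x = exp (-(m : ℤ)) → log (v c) + 1 ∣ m := by
    intro m
    induction m using Nat.strong_induction_on with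
    | _ m ih =>
      intro x hx h4
      rcases m.eq_zero_or_pos with rfl | hm
      · simp
      have hx0 : x ≠ 0 := fun h5 => exp_ne_zero (h4.symm.trans (by simp [h5]))
      have h5 : v (c * δ x) = exp (log (v c) + 1 - m) := by
        rw [map_mul, v_der_eq hk hπ h1 h2 hx0 (by rw [h4, log_exp]; omega), h4,
          ← exp_log (Link.v_ne (v := v) h0), ← exp_add, ← exp_add, log_exp]
        congr 1
        ring
      have h6 := hA _ (hc x hx)
      rw [h5, ← exp_zero, exp_le_exp] at h6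
      obtain ⟨j, hj⟩ := Int.eq_ofNat_of_zero_le (show 0 ≤ (m : ℤ) - (log (v c) + 1) by omega)
      have h7 := ih j (by omega) _ (hc x hx) (by rw [h5, ← hj, neg_sub])
      rw [← hj] at h7
      simpa using h7.add (dvd_refl _)
  obtain ⟨x, hx, y, hy, rfl⟩ := hf
  have h4 := Link.ne_zero_of_v hπ
  have key' : ∀ z ∈ A, z ≠ 0 → log (v c) + 1 ∣ log (v z) := fun z hz h5 => by
    have h6 := hA z hz
    rw [← exp_log (Link.v_ne (v := v) h5), ← exp_zero, exp_le_exp] at h6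
    obtain ⟨j, hj⟩ := Int.eq_ofNat_of_zero_le (neg_nonneg.2 h6)
    exact dvd_neg.1 (hj ▸ key j z hz (by rw [← hj, neg_neg, exp_log (Link.v_ne h5)]))
  have hx0 : x ≠ 0 := fun h5 => h4 (by simp [h5])
  have hy0 : y ≠ 0 := fun h5 => h4 (by simp [h5])
  have h5 := (key' y hy hy0).sub (key' x hx hx0)
  rw [map_div₀, ← exp_log (Link.v_ne (v := v) hx0), ← exp_log (Link.v_ne (v := v) hy0), ← exp_sub,
    exp_inj] at hπ
  have h7 : log (v y) - log (v x) = 1 := by omega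
  have h6 := Int.le_of_dvd one_pos (h7 ▸ h5)
  omega

variable [Algebra.EssFiniteType k F]

theorem isUnif_nv (hV : Dvs V) (ht : nv V t = exp (-1)) : IsUnif V.1 t :=
  ⟨(nv_lt_one hV).1 (ht ▸ Link.exp_neg_one_lt), Link.ne_zero_of_v ht,
    fun _ hy => (nv_le_iff hV).1 (ht ▸ Link.lt_one_iff_le.1 ((nv_lt_one hV).2 hy))⟩

theorem mem_of_unif (hV : Dvs V) (ht : nv V t = exp (-1)) : t ∈ V.1 :=
  (nv_le_one hV).1 (ht.le.trans Link.exp_neg_one_lt.le)

theorem dim_basis (b : Basis (Fin n) F Ω[F⁄k]) : dim k F = n := by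
  rw [← dm_eq, Gj.dm, finrank_eq_card_basis b, Fintype.card_fin]

/-- adapted coordinates -/
theorem exists_ad (hV : Dvs V) (b : Basis (Fin (n + 1)) F Ω[F⁄k]) {y : Fin n → F}
    (hy : ResInd k V.1 y) (ht : nv V t = exp (-1)) :
    jac b (Fin.cons t y) ≠ 0 ∧ ∀ j f, f ∈ V.1 → Link.pd b (Fin.cons t y) j f ∈ V.1 := by
  obtain ⟨Z, h1, h2⟩ := Jet.at_of_unif (N8.trdeg_of_basis b) V.2 hy (isUnif_nv hV ht)
  rw [← h1]
  exact ⟨Link.jac_ne_of_dual Z.D Z.dual, fun j f hf =>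
    Link.eq_pd_of_dual (b := b) Z.D Z.dual j ▸ h2.2 j f hf⟩

theorem jac_le_ad (hV : Dvs V) (b : Basis (Fin (n + 1)) F Ω[F⁄k]) {y : Fin n → F}
    (hy : ResInd k V.1 y) (ht : nv V t = exp (-1)) {c : Fin (n + 1) → F} (hc : ∀ i, c i ∈ V.1) :
    jac b c / jac b (Fin.cons t y) ∈ V.1 := by
  obtain ⟨h1, h2⟩ := exists_ad hV b hy ht
  rw [Link.jac_eq_det h1 c, mul_div_cancel_left₀ _ h1]
  exact Jet.det_mem (O := Cns.kSub V.2) fun i j => h2 i _ (hc j)

theorem exists_ind (hV : Dvs V) (b : Basis (Fin (n + 1)) F Ω[F⁄k]) :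
    ∃ y : Fin n → F, ResInd k V.1 y := by
  have h := (R276.DivVal_858.isDiv_iff.1 hV).2.2
  rwa [dm_eq, dim_basis b] at h

/-- the discrete place of a divisorial place -/
def toPlc (hq : Lnr q) (hs : Function.Surjective q.φ) (hV : Dvs q.V) : Plc k F E where
  v := nv q.V
  ρ := q.φ.comp ((nv q.V).integer.subtype.codRestrict q.V.1 fun x => (nv_le_one hV).1 x.2)
  unif := nv_unif hV
  triv := nv_triv _
  ρ_alg c := (q.r_eq (q.V.2 c)).symm.trans (hq c)
  ker _ := (q.ker _).trans (nv_lt_one hV).symm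
  surj z := (hs z).elim fun x hx => ⟨⟨x.1, (nv_le_one hV).2 x.2⟩, hx⟩

theorem toPlc_r (hq : Lnr q) (hs : Function.Surjective q.φ) (hV : Dvs q.V) (f : F) :
    (toPlc hq hs hV).r f = q.r f := by
  by_cases h : f ∈ q.V.1
  · rw [q.r_eq h, Plc.r_eq _ ((nv_le_one hV).2 h)]
    rfl
  · have h1 : ¬ (toPlc hq hs hV).v f ≤ 1 := (nv_le_one hV).not.2 h
    rw [Plc.r, dif_neg h1, eq_comm]
    exact dif_neg h

theorem exists_r (hs : Function.Surjective q.φ) (z : E) : ∃ f ∈ q.V.1, q.r f = z :=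
  (hs z).elim fun x hx => ⟨x.1, x.2, (q.r_coe x).trans hx⟩

/-- existence of residues -/
theorem exists_rs (hq : Lnr q) (hs : Function.Surjective q.φ) (hV : Dvs q.V)
    (b : Basis (Fin (n + 1)) F Ω[F⁄k]) (b' : Basis (Fin n) E Ω[E⁄k]) : ∃ g, Rs q b b' g := by
  obtain ⟨y, hy⟩ := exists_ind hV b
  obtain ⟨x, hx⟩ := nv_unif hV
  obtain ⟨h1, h2⟩ := exists_ad hV b hy hx
  have h3 : (toPlc hq hs hV).Ad b x y := ⟨hx, fun i => (nv_le_one hV).2 (hy.1 i), h1,
    fun j f hf => (nv_le_one hV).2 (h2 j f ((nv_le_one hV).1 hf))⟩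
  have h4 := h3.jac_res_ne b'
  simp only [toPlc_r] at h4
  obtain ⟨c, hc, h5⟩ := exists_r hs (jac b' fun i => q.r (y i))
  have h6 : q.V.v c = 1 := Pl.r_ne_zero_iff.1 (h5 ▸ h4)
  have hc0 : c ≠ 0 := RZ.ne_zero_iff.1 (h6 ▸ one_ne_zero)
  have hx0 := Link.ne_zero_of_v hx
  have key : ∀ t z, nv q.V t = exp (-1) → jac b z / (t * (jac b (Fin.cons x y) / (x * c))) =
      jac b z / jac b (Fin.cons x y) * c / (t / x) ∧ q.V.v (t / x) = 1 := fun t z ht => by
    have := Link.ne_zero_of_v ht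
    refine ⟨by field_simp, (nv_eq_one hV).1 ?_⟩
    rw [map_div₀, ht, hx, div_self exp_ne_zero]
  refine ⟨jac b (Fin.cons x y) / (x * c), div_ne_zero h1 (mul_ne_zero hx0 hc0), fun t ht z hz => ?_,
    fun t z ht hz => ?_⟩
  · obtain ⟨h7, h8⟩ := key t z ht
    rw [h7, ← RZ.le_one_iff, map_div₀, h8, div_one, RZ.le_one_iff]
    exact mul_mem (jac_le_ad hV b hy hx hz) hc
  · obtain ⟨h7, h8⟩ := key t (Fin.cons t z) ht
    obtain ⟨h9, h10⟩ := h3.cmp b' ht.le fun i => (nv_le_one hV).2 (hz i)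
    simp only [toPlc_r] at h10
    have h11 := (nv_le_one hV).1 h9
    rw [h7, Pl.r_div (mul_mem h11 hc) h8, Pl.r_mul h11 hc, h5, h10,
      mul_div_cancel_left₀ _ (Pl.r_ne_zero_iff.2 h8)]

theorem Rs.exists_unit {b : Basis (Fin (n + 1)) F Ω[F⁄k]} {b' : Basis (Fin n) E Ω[E⁄k]}
    (h : Rs q b b' g) (hs : Function.Surjective q.φ) (ht : nv q.V t = exp (-1)) :
    ∃ y : Fin n → F, (∀ i, y i ∈ q.V.1) ∧ q.V.v (jac b (Fin.cons t y)) = q.V.v (t * g) := by
  obtain ⟨z, hz⟩ := BRep.exists_jac_ne b'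
  choose y h1 h2 using fun i => exists_r hs (z i)
  have h3 := h.res t y ht h1
  simp only [h2] at h3
  have h4 := Pl.r_ne_zero_iff.1 (h3 ▸ hz)
  rw [map_div₀, div_eq_one_iff_eq
    (RZ.ne_zero_iff.2 (mul_ne_zero (Link.ne_zero_of_v ht) h.ne))] at h4
  exact ⟨y, h1, h4⟩

omit [CharZero k] [Algebra.EssFiniteType k F] in
theorem car_res (ha : Car H a) (h1 : H.val q.V = 1) (h2 : a.val q.V = 1) :
    Car (q.res H) (q.res a) := by
  obtain ⟨c, h3, h4⟩ := ha
  have h5 : (c • H).val q.V = 1 := by rw [val_nsmul, h1, one_pow]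
  refine ⟨c, ?_, ?_⟩
  · rw [← Pl.res_nsmul h1, ← Pl.res_add h5 h2]
    exact Pl.free_res h3 (by rw [val_add, h5, h2, mul_one])
  · rw [← Pl.res_nsmul h1, ← Pl.res_sub h5 h2]
    exact Pl.free_res h4 (by rw [val_sub, h5, h2, div_one])

omit [CharZero k] [Algebra.EssFiniteType k F] in
theorem car_rs (hH : Free H) (ha : Car H a) : Car (q.rs H) (q.rs a) := by
  have hF : Free (H - pr k (H.gen q.V)) := by
    rw [sub_eq_add_neg]
    exact hH.add (free_neg_pr _)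
  have h1 : Car (H - pr k (H.gen q.V)) H := by
    simpa using (Mod.car_self hF).add (Mod.car_pr (H.gen q.V))
  have h2 : Car (H - pr k (H.gen q.V)) (a - pr k (a.gen q.V)) :=
    (Car.trans hF h1 ha).sub (Mod.car_pr _)
  exact car_res h2 (Pl.val_sub_gen (v_gen _ _)) (Pl.val_sub_gen (v_gen _ _))

omit [Algebra.EssFiniteType k F] in
/-- independent residues at a prime of the normalisation come from the ambient model -/
theorem exists_res_loc (hH : Free H) {w : RZ k E} (hw : Prm (q.rs H) w) :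
    ∃ y : Fin (Gj.dm k E - 1) → F, (∀ i, y i ∈ loc H (q.cm w)) ∧ ResInd k w.1 fun i => q.r (y i) := by
  obtain ⟨r, s, h0, h1, h2⟩ := hH.exists_fam
  obtain ⟨i, hi⟩ := h2 (q.cm w)
  have h3 := val_of_le (Pl.cm_le w) hi
  have h4 := Pl.val_sub_gen h3
  have h5 : ∀ j, s j / s i ∈ (H - pr k (s i)).Sec := fun j =>
    (mem_Sec_sub_pr (h0 i)).2 (by rw [div_mul_cancel₀ _ (h0 i)]; exact h1 j)
  have h6 : ∀ (W : RZ k E) j, (q.cm W).v (s j) = H.val (q.cm W) →
      W.v (q.r (s j / s i)) = (q.res (H - pr k (s i))).val W := fun W j hj =>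
    (Pl.val_res h4 (by rw [map_div₀, hj, val_sub, val_pr (h0 i)])).symm
  have h7 := prS_of_prm (s := fun j => q.r (s j / s i)) (fun j => Pl.r_mem_Sec h4 (h5 j))
    (fun W => (h2 (q.cm W)).imp (h6 W)) (h6 w i hi) ((Car.of_lin (Pl.lin_rs h3) (Mod.car_self
      (Pl.free_res (sub_eq_add_neg H _ ▸ hH.add (free_neg_pr _)) h4))).prm hw)
  obtain ⟨x, h8, h9⟩ := le_rk_iff.1 (sub_one_le_iff.2 h7.2.2)
  choose j hj using h8
  refine ⟨fun i' => s (j i') / s i, fun i' => div_mem_loc (m := 1) (by simpa using h1 _)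
    (by simpa using h1 i) (by simpa using hi), ?_⟩
  convert h9 using 2 with i'
  rw [← hj i', div_self (h0 i), Pl.r_one]
  exact (div_one _).symm

/-- classes of the model have degree zero on exceptional divisors -/
theorem dg_car (hH : Free H) (hV : Dvs V) (h : ¬ Prm H V) (hl : ∀ a ∈ l, Car H a) : dg V l = 0 := by
  by_cases hd : l.length + 1 = dim k F
  swap
  · exact dg_of_ne hV hd
  have h1 : ∀ l' : List (BD k F), (∀ a ∈ l', Free a ∧ Car H a) → ∀ j, l'.length + j + 1 = dim k F →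
      dg V (l' ++ replicate j H) = 0 := by
    intro l'
    induction l' with
    | nil => exact fun _ j hj => dg_eq_zero hH hV h (by simpa using hj.symm)
    | cons a l' ih =>
      intro h1 j hj
      obtain ⟨⟨h2, c, -, h3⟩, h4⟩ := List.forall_mem_cons.1 h1
      have h5 : ∀ b ∈ l' ++ replicate j H, Nef b := all_app (fun b hb => (h4 b hb).1.nef)
        (all_rp hH.nef j)
      have h6 := dg_nonneg (V := V) (all_con h3.nef h5)
      have h7 := ih h4 (j + 1) (by simp at hj; omega)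
      rw [List.replicate_succ, dg_perm List.perm_middle] at h7
      rw [dg_sub, dg_nsmul, h7, mul_zero, zero_sub, neg_nonneg] at h6
      exact h6.antisymm (dg_nonneg (all_con h2.nef h5))
  have h2 : ∀ l l' : List (BD k F), (∀ a ∈ l, Car H a) → (∀ a ∈ l', Free a ∧ Car H a) →
      l.length + l'.length + 1 = dim k F → dg V (l ++ l') = 0 := by
    intro l
    induction l with
    | nil => exact fun l' _ h2 h3 => by simpa using h1 l' h2 0 (by simpa using h3)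
    | cons a l ih =>
      intro l' h2 h3 h4
      obtain ⟨h5, h6⟩ := List.forall_mem_cons.1 h2
      obtain ⟨c, h7, -⟩ := id h5
      have h8 := (Mod.car_self hH).nsmul c
      rw [← add_sub_cancel_left (c • H) a, List.cons_append, dg_sub, ← dg_perm List.perm_middle,
        ← dg_perm List.perm_middle, ih _ h6 (all_con ⟨h7, h8.add h5⟩ h3) (by simp at h4 ⊢; omega),
        ih _ h6 (all_con ⟨hH.nsmul c, h8⟩ h3) (by simp at h4 ⊢; omega), sub_zero]
  simpa using h2 l [] hl (by simp) (by simpa using hd)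

/-- exceptional classes have degree zero -/
theorem bnum_exc (hH : Free H) (ha : EqOn H a 0) (hl : ∀ a ∈ l, Car H a) : bnum (a :: l) = 0 :=
  bnum_eq_zero fun V hV h => dg_car hH hV (fun h1 => h ((od_eq_zero hV).2 (ha V h1))) hl

theorem bnum_nonneg_on (hH : Free H) (ha : LeOn H 0 a) (hl : ∀ a ∈ l, Nef a ∧ Car H a) :
    0 ≤ bnum (a :: l) := by
  obtain ⟨T, -, h1, -, h2⟩ := exists_cyc a l ∅ (by simp)
  rw [h2]
  refine Finset.sum_nonneg fun V hV => ?_
  by_cases h : Prm H V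
  · exact mul_nonneg (map_zero (od V) ▸ leOn_iff.1 ha V h) (dg_nonneg fun b hb => (hl b hb).1)
  · rw [dg_car hH (h1 V hV) h fun b hb => (hl b hb).2, mul_zero]

theorem bnum_le_on {a' : BD k F} (hH : Free H) (ha : LeOn H a a') (hl : ∀ a ∈ l, Nef a ∧ Car H a) :
    bnum (a :: l) ≤ bnum (a' :: l) := by
  rw [← sub_nonneg, ← bnum_sub]
  exact bnum_nonneg_on hH (Mod.leOn_sub'.2 ha) hl

theorem bnum_eq_on {a' : BD k F} (hH : Free H) (ha : EqOn H a a') (hl : ∀ a ∈ l, Car H a) :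
    bnum (a :: l) = bnum (a' :: l) := by
  rw [← sub_eq_zero, ← bnum_sub]
  exact bnum_exc hH (Mod.eqOn_sub.2 ha) hl

end Gen

section Cx

variable {F E : Type} [Field F] [Field E] [Algebra ℂ F] [Algebra ℂ E] {P : PModel ℂ F} {n : ℕ}
  {V : RZ ℂ F} {g : F} {q : Pl ℂ F ℂ E} {H : BD ℂ F} {l : List (BD ℂ F)}

/-- a general point of the centre -/
theorem exists_ov_unit {i : Fin (P.N + 1)} (hV : ∀ y ∈ P.A i, y ∈ V.1) {c : F} (hc : c ∈ P.A i)
    (h : V.v c = 1) : ∃ x ∈ pat P i, Ov x V.1 ∧ ev c x ≠ 0 := by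
  obtain ⟨φ, h6, h7⟩ := KT.exists_point_of_isPrime (𝕜 := ℂ)
    ((IsLocalRing.maximalIdeal V.1).comap ((P.A i).val.toRingHom.codRestrict V.1 fun y => hV y y.2))
    inferInstance ⟨_, hc⟩ fun h6 => ((V.1.valuation_lt_one_iff _).1 (Ideal.mem_comap.1 h6)).ne h
  obtain ⟨x, hx, h8⟩ := exists_pt i φ
  refine ⟨x, hx, fun f hf => ?_, (h8 ⟨_, hc⟩).trans_ne h7⟩
  obtain ⟨a, ha, c, hc, h0, h10⟩ := (mem_lp_iff hx).1 hf
  have h11 : V.v c = 1 := by
    refine le_antisymm (RZ.le_one_iff.2 (hV c hc)) (not_lt.1 fun h12 => h0 ?_)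
    exact (h8 ⟨c, hc⟩).trans (h6 _ (Ideal.mem_comap.2 ((V.1.valuation_lt_one_iff _).2 h12)))
  have h12 := RZ.le_one_iff.2 (hV a ha)
  rwa [← h10, map_mul, h11, mul_one, RZ.le_one_iff] at h12

theorem exists_ov_mem {ι : Type*} [Fintype ι] {y : ι → F} (hy : ∀ j, y j ∈ loc (oP P) V) :
    ∃ x : Pts P, Ov x V.1 ∧ ∀ j, y j ∈ (lp x).O := by
  classical
  obtain ⟨i, -, hi⟩ := Br.exists_chart (P := P) V
  choose c h1 h2 h3 using fun j => exists_den hi (hy j)
  obtain ⟨x, hx, h4, h5⟩ := exists_ov_unit hi (c := ∏ j, c j) (prod_mem fun j _ => h1 j)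
    (by simp [map_prod, h2])
  refine ⟨x, h4, fun j => ?_⟩
  unfold ev at h5
  rw [LP.v_prod _ fun j _ => A_le hx (h1 j), Finset.prod_ne_zero_iff] at h5
  have h6 := h5 j (Finset.mem_univ j)
  rw [← mul_div_cancel_left₀ (y j) (LP.ne_zero_of_ne h6)]
  exact LP.div_mem (A_le hx (h3 j)) h6

theorem od_kP_le {b : Basis (Fin n) F Ω[F⁄ℂ]} (P : PModel ℂ F) {W : PModel ℂ F}
    (hV : Prm (oP W) V) : od V (kP P b) ≤ od V (kP W b) :=
  have := eft P; (od_le_iff hV.dvs).2 (Sark27.kP_le_val P b hV)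

theorem od_kP_eq {b : Basis (Fin n) F Ω[F⁄ℂ]} {W : PModel ℂ F} (hP : Prm (oP P) V)
    (hV : Prm (oP W) V) : od V (kP P b) = od V (kP W b) :=
  (od_kP_le P hV).antisymm (od_kP_le W hP)

theorem od_kP_lt {b : Basis (Fin n) F Ω[F⁄ℂ]} {W : PModel ℂ F} (hV : Prm (oP W) V)
    (hP : ¬ Prm (oP P) V) : od V (kP P b) < od V (kP W b) :=
  have := eft P; (od_lt_iff hV.dvs).2 (Sark27.kP_lt_val b hV hP)

theorem tr_kP {b : Basis (Fin n) F Ω[F⁄ℂ]} {W : PModel ℂ F} (h : oP P ∈ Br.On W) :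
    tr P (kP W b) = kP P b :=
  (eq_tr (Br.kP_mem b) fun _ hV => od_kP_eq hV (prm_up h hV)).symm

section Adj

variable {b : Basis (Fin (n + 1)) F Ω[F⁄ℂ]} {b' : Basis (Fin n) E Ω[E⁄ℂ]} (h : Rs q b b' g)
  (hs : Function.Surjective q.φ) (hV : Prm (oP P) q.V)
include h hs hV

/-- the form generates `K + V` along `V` -/
theorem Rs.val : q.V.v g = (kP P b + dv P q.V).val q.V := by
  have := eft P
  obtain ⟨x, hx⟩ := exists_ov (P := P) q.V
  obtain ⟨z, hz⟩ := exists_crd b x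
  obtain ⟨t, ht⟩ := exists_eqn hV hx
  obtain ⟨y, h1, h2⟩ := h.exists_unit hs ht.val
  have h3 := Sark27.jac_le_kP b hV (c := Fin.cons t y) (Fin.cases (hx _ ht.mem) h1)
  have h4 := (RZ.le_iff (mul_ne_zero ht.ne h.ne)).2 (h.mem t ht.val z fun i => hx _ (hz.mem i))
  have h5 : q.V.v (t * g) = (kP P b).val q.V :=
    (h2.symm.trans_le h3).antisymm ((Br.at_kP b hz _ hx).symm.trans_le h4)
  rw [val_add, ← at_dv hV ht _ hx, ← h5, ← map_mul, mul_right_comm, mul_inv_cancel₀ ht.ne, one_mul]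

theorem Rs.val_one : (kP P b + dv P q.V - pr ℂ g).val q.V = 1 := Pl.val_sub_gen (h.val hs hV)

theorem Rs.lin : Lin (q.rs (kP P b + dv P q.V)) (q.res (kP P b + dv P q.V - pr ℂ g)) :=
  Pl.lin_rs (h.val hs hV)

variable [Algebra.EssFiniteType ℂ E]

/-- **adjunction** at a prime divisor of the normalisation -/
theorem Rs.adj {w : RZ ℂ E} (hw : Prm (q.rs (oP P)) w) {c : Fin n → E} (hc : ∀ i, c i ∈ w.1) :
    w.v (jac b' c) ≤ (q.res (kP P b + dv P q.V - pr ℂ g)).val w := by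
  have := eft P
  obtain ⟨m, rfl⟩ : ∃ m, n = m + 1 := dim_basis b' ▸ dim_pos_of_ne hw.1
  have h1 := exists_res_loc Br.free_oP hw
  rw [dm_eq, dim_basis b', Nat.add_sub_cancel] at h1
  obtain ⟨y, h1, h2⟩ := h1
  obtain ⟨x, hx, h3⟩ := exists_ov_mem h1
  have hx' : Ov x q.V.1 := fun f hf => (hx f hf).1
  obtain ⟨z, hz⟩ := exists_crd b x
  obtain ⟨t, ht⟩ := exists_eqn hV hx'
  have h4 := ((Br.at_kP b hz).add (at_dv hV ht)).sub (Br.at_pr x h.ne)
  have h5 := Pl.unit_of_gen (h.val_one hs hV) (h4 _ hx)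
  rw [Pl.val_res (h.val_one hs hV) (h4 _ hx)]
  have h6 := Pl.r_ne_zero_iff.2 h5
  obtain ⟨π, hπ⟩ := nv_unif hw.dvs
  obtain ⟨h7, h8⟩ := exists_ad hw.dvs b' h2 hπ
  refine ((RZ.le_iff h7).2 (jac_le_ad hw.dvs b' h2 hπ hc)).trans ((RZ.le_iff h6).2
    ((nv_le_one hw.dvs).1 (seid (nv_triv w) (δ := Link.pd b' (Fin.cons π fun i => q.r (y i)) 0) hπ
      (fun f hf => (nv_le_one hw.dvs).2 (h8 0 f ((nv_le_one hw.dvs).1 hf))) ?_
      (A := q.r '' (lp x).O) ?_ ?_ ?_)))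
  · have h9 := Link.pd_self h7 0 0
    rw [if_pos rfl, Fin.cons_zero] at h9
    rw [h9, map_one]
  · rintro _ ⟨f, hf, rfl⟩
    exact (nv_le_one hw.dvs).2 (hx f hf).2
  · obtain ⟨f, hf, rfl⟩ := exists_r hs π
    obtain ⟨d, h9, h10, h11⟩ := ht.loc.den f ((nv_le_one hV.dvs).2 hf)
    refine ⟨_, ⟨_, h11, rfl⟩, _, ⟨_, h9, rfl⟩, ?_⟩
    rw [Pl.r_mul (hx' _ h9) hf,
      mul_div_cancel_left₀ _ (Pl.r_ne_zero_iff.2 ((nv_eq_one hV.dvs).1 h10))]
  · rintro _ ⟨f, hf, rfl⟩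
    have h9 : ∀ i, (Fin.cons f y : Fin (m + 1) → F) i ∈ (lp x).O := Fin.cases hf h3
    have h10 := h.res t (Fin.cons f y) ht.val fun i => hx' _ (h9 i)
    have h11 := hz.jac_div_mem (lp_fin x) b (a := Fin.cons t (Fin.cons f y)) (Fin.cases ht.mem h9)
    refine ⟨_, h11, ?_⟩
    have h12 : (fun i => q.r ((Fin.cons f y : Fin (m + 1) → F) i)) =
        Fin.cons (q.r f) fun i => q.r (y i) := funext (Fin.cases rfl fun _ => rfl)
    rw [Link.pd_apply, Fin.update_cons_zero, div_mul_div_comm, mul_comm, mul_div_mul_right _ _ h7,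
      ← h12, ← h10, ← Pl.r_div (h.mem t ht.val _ (Fin.cases (hx' _ ht.mem) fun i => hx' _ (h9 i))) h5]
    congr 1
    have := ht.ne
    have := h.ne
    have := hz.jac_ne (lp_fin x) b
    field_simp

/-- adjunction against any smooth model of the divisor -/
theorem Rs.leOn (P' : PModel ℂ E) :
    LeOn (q.rs (oP P)) (kP P' b') (q.res (kP P b + dv P q.V - pr ℂ g)) := fun w hw => by
  obtain ⟨z, h1, h2⟩ := Sark27.exists_jac P' w b'
  exact h2 ▸ h.adj hs hV hw fun i => mem_of_loc (h1 i)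

end Adj

variable [Algebra.EssFiniteType ℂ F] [Algebra.EssFiniteType ℂ E]

/-- **adjunction**, numerical form -/
theorem adj_num (hq : Lnr q) (hs : Function.Surjective q.φ) (hV : Prm (oP P) q.V)
    (b : Basis (Fin (n + 1)) F Ω[F⁄ℂ]) (b' : Basis (Fin n) E Ω[E⁄ℂ]) (P' : PModel ℂ E)
    (hl : ∀ a ∈ l, Nef a ∧ a ∈ Br.On P) :
    bnum (kP P' b' :: l.map q.rs) ≤ dg q.V ((kP P b + dv P q.V) :: l) := by
  obtain ⟨g, h⟩ := exists_rs hq hs hV.dvs b b'
  rw [dg_eq_pl hV.dvs hq hs, List.map_cons, (h.lin hs hV).bnum_eq]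
  refine bnum_le_on (Pl.free_rs Br.free_oP) (h.leOn hs hV P') fun a ha => ?_
  obtain ⟨a, h1, rfl⟩ := List.mem_map.1 ha
  exact ⟨(hl a h1).1.rs q, car_rs Br.free_oP (car_of_On (hl a h1).2)⟩

theorem exists_basis_dim (E : Type) [Field E] [Algebra ℂ E] [Algebra.EssFiniteType ℂ E] {n : ℕ}
    (h : dim ℂ E = n) : Nonempty (Basis (Fin n) E Ω[E⁄ℂ]) :=
  ⟨Module.finBasisOfFinrankEq E Ω[E⁄ℂ] h⟩

/-- **adjunction** on the generic fibre of a divisor which is fibred in curves -/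
theorem adj_up (hq : Lnr q) (hs : Function.Surjective q.φ) (hV : Prm (oP P) q.V)
    (b : Basis (Fin n) F Ω[F⁄ℂ]) {h : BD ℂ E} (hh : Free h) (hc : Car (q.rs (oP P)) h)
    (hd : dim (cf h) E = 1) :
    2 * (gn (cf h) E : ℤ) - 2 ≤ bnum [up (cf h) (q.rs (kP P b + dv P q.V))] := by
  have h1 := Loc.dim_cf_add h
  obtain ⟨M, D, hD⟩ := exists_mdl_pdiv hV.dvs
  obtain ⟨d, h2⟩ := dim_pos_of_ne hV.1
  have h3 := dim_pl M.S h2 D hq hD.symm hs
  obtain rfl : n = dim ℂ (cf h) + 1 + 1 := by rw [← dim_basis b]; omega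
  obtain ⟨b'⟩ := exists_basis_dim E (n := dim ℂ (cf h) + 1) (by omega)
  obtain ⟨g, hg⟩ := exists_rs hq hs hV.dvs b b'
  obtain ⟨δ, hδ⟩ := Loc.exists_rel hd b'
  have h4 := hδ.le_up hd (s := 1) (a := q.res (kP P b + dv P q.V - pr ℂ g)) fun W hW z hz => by
    rw [pow_one]
    exact hg.adj hs hV (Loc.prm_dn (Pl.free_rs Br.free_oP) hh hc hd hW) hz
  rw [one_smul] at h4
  have h5 := bnum_mono1 (l := []) (eff_sub_of_le h4).psef (by simp)
  rwa [Loc.deg_kC hd (hδ.ne hd), Loc.cst_cf, Nat.cast_one, mul_one,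
    ← ((hg.lin hs hV).up _).bnum_eq] at h5

omit [Algebra.EssFiniteType ℂ E] in
/-- **adjunction** on the contracted curves -/
theorem adjAt (b : Basis (Fin n) F Ω[F⁄ℂ]) (hH : Free H) (hP : H ∈ Br.On P) {d : ℕ}
    (hd : dim ℂ F = d + 2) : Loc.AdjAt P (kP P b) H d := fun V hV h => by
  have := essFT_Rf hV.dvs
  have h1 := adj_up (q := plV V) (lnr_plV V) (surj_plV V) hV b (Pl.free_rs hH)
    (car_rs Br.free_oP (car_of_On hP)) (Loc.dim_cen_one hV.dvs hd h)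
  rw [Loc.dg_cen_one hH h, mul_comm]
  refine mul_le_mul_of_nonneg_left (le_trans ?_ h1) (Loc.dlV_pos hH hV.dvs).le
  omega

end Cx

end Crest.Agent.X262.Geo
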