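import Crest.Agent.X262.Geo.Adj
import Crest.Agent.X262.Reg18.Defs
import Crest.Agent.X262.SubE.Main

/-!
# Row 262, GEO (helper24), part 4: adjunction in the vocabulary of the consumers

* `adj_fdg` : adjunction on the generic fibre of a prime over its centre, any dimension;
* `adjG : Reg.AdjGStmt`, `adj2 b : SubE.Adj2 b`.
-/

set_option autoImplicit false

open scoped KaehlerDifferential

noncomputable section

namespace Crest.Agent.X262.Geo

open Crest.Agent.X277 Crest.Agent.X277.BD Crest.Agent.X277.Pst Crest.Agent.X277.BD.Cyc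
open Crest.Agent.X277.Lef
open Crest.Agent.X277.BD.Br (On oP kP)
open Crest.Agent.X262.Bnd (ctr cl fdg)

variable {F : Type} [Field F] [Algebra ℂ F] [Algebra.EssFiniteType ℂ F] {P : PModel ℂ F}
  {H : BD ℂ F} {V : RZ ℂ F} {n d : ℕ}

theorem adj_fdg (b : Module.Basis (Fin n) F Ω[F⁄ℂ]) (hH : Free H) (hP : H ∈ On P)
    (hV : Prm (oP P) V) (hd : dim ℂ F = d + 2) (h : dim ℂ (ctr H V) = d) :
    2 * (Loc.gn (cl H V) (Rf V) : ℤ) - 2 ≤ fdg V (cl H V) (kP P b + dv P V) := by
  have := essFT_Rf hV.dvs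
  have h1 := End95.dim_cl_one hH hV.dvs hd h
  rw [End95.fdg_eq]
  rw [End95.cl_eq_cen hH] at h1 ⊢
  exact adj_up (q := plV V) (lnr_plV V) (surj_plV V) hV b (Pl.free_rs hH)
    (car_rs Br.free_oP (car_of_On hP)) h1

theorem adjG : Reg.AdjGStmt := fun _ _ _ _ b _ _ _ hH hP hV h =>
  adj_fdg b hH hP hV (dim_basis b) h

theorem adj2 (b : Module.Basis (Fin 2) F Ω[F⁄ℂ]) : SubE.Adj2 b := fun _ _ hH hP =>
  adjAt b hH hP (dim_basis b)

end Crest.Agent.X262.Geo
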